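import Crest.Agent.R347.Boot3

/-! R347: the bootstrap derivation (generated) -/

set_option autoImplicit false
set_option maxRecDepth 100000
set_option Elab.async false

namespace Crest.Agent.R347.C

structure Init (D : Data) : Prop where
  r7 : D.IR 7
    [((1 : ℚ), (50405263 / 50000000 : ℚ)), ((1 : ℚ), (697947713 / 1000000000 : ℚ)), ((3 : ℚ), (34226869 / 40000000 : ℚ)), ((3 : ℚ), (732927863 /
  1000000000 : ℚ))]
    [((1 / 4 : ℚ), (50405263 / 50000000 : ℚ)), ((1 / 4 : ℚ), (697947713 / 1000000000 : ℚ)), ((3 / 4 : ℚ), (34226869 / 40000000 : ℚ)), ((3 / 4 : ℚ),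
  (732927863 / 1000000000 : ℚ)), ((3 / 4 : ℚ), (998130973 / 1000000000 : ℚ)), ((3 / 4 : ℚ), (27662811 / 40000000 : ℚ)), ((3 / 4 : ℚ), (428492417 /
  500000000 : ℚ)), ((3 / 4 : ℚ), (736098849 / 1000000000 : ℚ)), ((3 / 2 : ℚ), (167063583 / 200000000 : ℚ)), ((3 / 2 : ℚ), (29686437 / 40000000 : ℚ))]
  r9 : D.IR 9
    [((1 : ℚ), (251219383 / 250000000 : ℚ)), ((1 : ℚ), (743015099 / 1000000000 : ℚ)), ((3 : ℚ), (6974747 / 8000000 : ℚ)), ((3 : ℚ), (387802519 /
  500000000 : ℚ))]
    [((1 / 4 : ℚ), (251219383 / 250000000 : ℚ)), ((1 / 4 : ℚ), (743015099 / 1000000000 : ℚ)), ((3 / 4 : ℚ), (6974747 / 8000000 : ℚ)), ((3 / 4 : ℚ),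
  (387802519 / 500000000 : ℚ)), ((3 / 4 : ℚ), (1000927859 / 1000000000 : ℚ)), ((3 / 4 : ℚ), (185444187 / 250000000 : ℚ)), ((3 / 4 : ℚ), (872356469 /
  1000000000 : ℚ)), ((3 / 4 : ℚ), (388364319 / 500000000 : ℚ)), ((3 / 2 : ℚ), (86473979 / 100000000 : ℚ)), ((3 / 2 : ℚ), (778099459 / 1000000000 :
  ℚ))]
  o7_4 : D.IOp 7 22
    [((122931291 / 125000000 : ℚ), (50405263 / 50000000 : ℚ)), ((4311023831 / 500000000 : ℚ), (709947 / 1000000 : ℚ)), ((1687330987 / 1000000000 : ℚ),
  (34226869 / 40000000 : ℚ))]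
    [((122931291 / 250000000 : ℚ), (50405263 / 50000000 : ℚ)), ((4311023831 / 1000000000 : ℚ), (709947 / 1000000 : ℚ)), ((1687330987 / 2000000000 :
  ℚ), (34226869 / 40000000 : ℚ)), ((978383567 / 2000000000 : ℚ), (998130973 / 1000000000 : ℚ)), ((52139723 / 12500000 : ℚ), (353101 / 500000 : ℚ)),
  ((1723406543 / 2000000000 : ℚ), (428492417 / 500000000 : ℚ))]
  o9_4 : D.IOp 9 22
    [((998320959 / 1000000000 : ℚ), (251219383 / 250000000 : ℚ)), ((7719717161 / 1000000000 : ℚ), (731637 / 1000000 : ℚ)), ((1965961709 / 1000000000 :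
  ℚ), (6974747 / 8000000 : ℚ))]
    [((998320959 / 2000000000 : ℚ), (251219383 / 250000000 : ℚ)), ((7719717161 / 2000000000 : ℚ), (731637 / 1000000 : ℚ)), ((1965961709 / 2000000000 :
  ℚ), (6974747 / 8000000 : ℚ)), ((500754033 / 1000000000 : ℚ), (1000927859 / 1000000000 : ℚ)), ((7579400279 / 2000000000 : ℚ), (365731 / 500000 : ℚ)),
  ((247561999 / 250000000 : ℚ), (872356469 / 1000000000 : ℚ))]
  o9_5 : D.IOp 9 26
    [((998320959 / 1000000000 : ℚ), (251219383 / 250000000 : ℚ)), ((9141284203 / 1000000000 : ℚ), (355657 / 500000 : ℚ)), ((1965961709 / 1000000000 :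
  ℚ), (6974747 / 8000000 : ℚ))]
    [((998320959 / 2000000000 : ℚ), (251219383 / 250000000 : ℚ)), ((9141284203 / 2000000000 : ℚ), (355657 / 500000 : ℚ)), ((1965961709 / 2000000000 :
  ℚ), (6974747 / 8000000 : ℚ)), ((500754033 / 1000000000 : ℚ), (1000927859 / 1000000000 : ℚ)), ((8975193513 / 2000000000 : ℚ), (711143 / 1000000 :
  ℚ)), ((247561999 / 250000000 : ℚ), (872356469 / 1000000000 : ℚ))]

theorem n1 {D : Data} (I : Init D) : D.ZB 28 7 (1292328619 / 1000000000 : ℚ) (263753703 / 250000000 : ℚ) :=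
  Data.rZB I.r7 28 _ _ (by decide +kernel)

theorem n2 {D : Data} (I : Init D) : D.MU 28 7 (263753703 / 250000000 : ℚ) :=
  Data.rInitMU (n1 I) (by decide +kernel)

theorem n3 {D : Data} (I : Init D) : D.A 28 28 24 (2558107 / 2500000000 : ℚ) :=
  Data.rInitA (n1 I) 24 _ (8527023 / 25000000000 : ℚ) (48044587 / 1000000000000 : ℚ) (8344033 / 50000000000 : ℚ) (by decide +kernel)

theorem n4 {D : Data} (I : Init D) : D.A 28 28 28 (27047157 / 100000000000 : ℚ) :=
  Data.rInitA (n1 I) 28 _ (9015719 / 100000000000 : ℚ) (9160487 / 1000000000000 : ℚ) (2447299 / 62500000000 : ℚ) (by decide +kernel)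

theorem n5 {D : Data} (I : Init D) : D.A 28 28 32 (3574659 / 50000000000 : ℚ) :=
  Data.rInitA (n1 I) 32 _ (1191553 / 50000000000 : ℚ) (8732983 / 5000000000000 : ℚ) (4593863 / 500000000000 : ℚ) (by decide +kernel)

theorem n6 {D : Data} (I : Init D) : D.ZB 32 7 (263074637 / 200000000 : ℚ) (522762491 / 500000000 : ℚ) :=
  Data.rZB I.r7 32 _ _ (by decide +kernel)

theorem n7 {D : Data} (I : Init D) : D.MU 32 7 (522762491 / 500000000 : ℚ) :=
  Data.rInitMU (n6 I) (by decide +kernel)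

theorem n8 {D : Data} (I : Init D) : D.A 32 32 32 (10113669 / 100000000000 : ℚ) :=
  Data.rInitA (n6 I) 32 _ (3371223 / 100000000000 : ℚ) (73499557 / 100000000000000 : ℚ) (1653019 / 100000000000 : ℚ) (by decide +kernel)

theorem n9 {D : Data} (I : Init D) : D.A 32 32 48 (5872223 / 10000000000000 : ℚ) :=
  Data.rInitA (n6 I) 48 _ (9787037 / 50000000000000 : ℚ) (31506277 / 50000000000000000 : ℚ) (1344147 / 20000000000000 : ℚ) (by decide +kernel)

theorem n10 {D : Data} (I : Init D) : D.ZB 40 7 (1387025137 / 1000000000 : ℚ) (1045380789 / 1000000000 : ℚ) :=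
  Data.rZB I.r7 40 _ _ (by decide +kernel)

theorem n11 {D : Data} (I : Init D) : D.MU 40 7 (1045380789 / 1000000000 : ℚ) :=
  Data.rInitMU (n10 I) (by decide +kernel)

theorem n12 {D : Data} (I : Init D) : D.A 40 40 24 (26780043 / 10000000000 : ℚ) :=
  Data.rInitA (n10 I) 24 _ (8926681 / 10000000000 : ℚ) (620769 / 25000000000 : ℚ) (5820787 / 10000000000 : ℚ) (by decide +kernel)

theorem n13 {D : Data} (I : Init D) : D.A 40 40 28 (4154923 / 5000000000 : ℚ) :=
  Data.rInitA (n10 I) 28 _ (6924871 / 25000000000 : ℚ) (5301493 / 1250000000000 : ℚ) (65701 / 390625000 : ℚ) (by decide +kernel)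

theorem n14 {D : Data} (I : Init D) : D.A 40 40 32 (6446361 / 25000000000 : ℚ) :=
  Data.rInitA (n10 I) 32 _ (2148787 / 25000000000 : ℚ) (1448827 / 2000000000000 : ℚ) (24300333 / 500000000000 : ℚ) (by decide +kernel)

theorem n15 {D : Data} (I : Init D) : D.ZB 48 9 (633622977 / 500000000 : ℚ) (27585889 / 25000000 : ℚ) :=
  Data.rZB I.r9 48 _ _ (by decide +kernel)

theorem n16 {D : Data} (I : Init D) : D.A 48 48 40 (64494213 / 1000000000000 : ℚ) :=
  Data.rInitA (n15 I) 40 _ (21498071 / 1000000000000 : ℚ) (4175947 / 100000000000 : ℚ) (610359 / 250000000000 : ℚ) (by decide +kernel)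

theorem n17 {D : Data} (I : Init D) : D.A 48 48 48 (7516241 / 1000000000000 : ℚ) :=
  Data.rInitA (n15 I) 48 _ (12527067 / 5000000000000 : ℚ) (6947299 / 1250000000000 : ℚ) (9207557 / 50000000000000 : ℚ) (by decide +kernel)

theorem n18 {D : Data} (I : Init D) : D.ZB 56 9 (262920419 / 200000000 : ℚ) (1119429783 / 1000000000 : ℚ) :=
  Data.rZB I.r9 56 _ _ (by decide +kernel)

theorem n19 {D : Data} (I : Init D) : D.A 56 56 48 (17941959 / 1000000000000 : ℚ) :=
  Data.rInitA (n18 I) 48 _ (5980653 / 1000000000000 : ℚ) (1196559 / 100000000000 : ℚ) (11718097 / 25000000000000 : ℚ) (by decide +kernel)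

theorem n20 {D : Data} (I : Init D) : D.A 56 56 56 (1208643 / 500000000000 : ℚ) :=
  Data.rInitA (n18 I) 56 _ (4028809 / 5000000000000 : ℚ) (180963 / 100000000000 : ℚ) (4131141 / 100000000000000 : ℚ) (by decide +kernel)

theorem n21 {D : Data} (I : Init D) : D.A 56 56 64 (32567619 / 100000000000000 : ℚ) :=
  Data.rInitA (n18 I) 64 _ (10855873 / 100000000000000 : ℚ) (3421019 / 12500000000000 : ℚ) (568909 / 156250000000000 : ℚ) (by decide +kernel)

theorem n22 {D : Data} (I : Init D) : D.ZB 60 9 (267964947 / 200000000 : ℚ) (1128326509 / 1000000000 : ℚ) :=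
  Data.rZB I.r9 60 _ _ (by decide +kernel)

theorem n23 {D : Data} (I : Init D) : D.A 60 60 64 (45087 / 80000000000 : ℚ) :=
  Data.rInitA (n22 I) 64 _ (15029 / 80000000000 : ℚ) (45618259 / 100000000000000 : ℚ) (257857 / 40000000000000 : ℚ) (by decide +kernel)

theorem n24 {D : Data} (I : Init D) : D.ZB 80 9 (1475930973 / 1000000000 : ℚ) (1176771691 / 1000000000 : ℚ) :=
  Data.rZB I.r9 80 _ _ (by decide +kernel)

theorem n25 {D : Data} (I : Init D) : D.A 80 80 112 (4320333 / 10000000000000000 : ℚ) :=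
  Data.rInitA (n24 I) 112 _ (11212563 / 100000000000000000 : ℚ) (8619843 / 20000000000000000 : ℚ) (17352363 / 50000000000000000000 : ℚ) (by decide +kernel)

theorem n26 {D : Data} (I : Init D) : D.ZB 96 9 (199421799 / 125000000 : ℚ) (1218684109 / 1000000000 : ℚ) :=
  Data.rZB I.r9 96 _ _ (by decide +kernel)

theorem n27 {D : Data} (I : Init D) : D.A 96 96 24 (40201137 / 1000000000 : ℚ) :=
  Data.rInitA (n26 I) 24 _ (13400379 / 1000000000 : ℚ) (17358517 / 1000000000 : ℚ) (3953379 / 1000000000 : ℚ) (by decide +kernel)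

theorem n28 {D : Data} (I : Init D) : D.A 96 96 28 (19592559 / 1000000000 : ℚ) :=
  Data.rInitA (n26 I) 28 _ (65308529 / 10000000000 : ℚ) (8832793 / 1000000000 : ℚ) (3144077 / 2000000000 : ℚ) (by decide +kernel)

theorem n29 {D : Data} (I : Init D) : D.A 96 96 80 (4286651 / 2500000000000 : ℚ) :=
  Data.rInitA (n26 I) 80 _ (28577673 / 50000000000000 : ℚ) (1354281 / 1000000000000 : ℚ) (1954001 / 200000000000000 : ℚ) (by decide +kernel)

theorem n30 {D : Data} (I : Init D) : D.A 96 96 96 (9673631 / 100000000000000 : ℚ) :=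
  Data.rInitA (n26 I) 96 _ (6449087 / 200000000000000 : ℚ) (453963 / 5000000000000 : ℚ) (24427203 / 100000000000000000 : ℚ) (by decide +kernel)

theorem n31 {D : Data} (I : Init D) : D.ZB 112 9 (68981301 / 40000000 : ℚ) (1263227279 / 1000000000 : ℚ) :=
  Data.rZB I.r9 112 _ _ (by decide +kernel)

theorem n32 {D : Data} (I : Init D) : D.A 112 112 32 (19191909 / 1000000000 : ℚ) :=
  Data.rInitA (n31 I) 32 _ (63973029 / 10000000000 : ℚ) (43443449 / 5000000000 : ℚ) (803047 / 625000000 : ℚ) (by decide +kernel)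

theorem n33 {D : Data} (I : Init D) : D.ZB 120 9 (179298381 / 100000000 : ℚ) (32163413 / 25000000 : ℚ) :=
  Data.rZB I.r9 120 _ _ (by decide +kernel)

theorem n34 {D : Data} (I : Init D) : D.A 120 120 32 (41337 / 1562500 : ℚ) :=
  Data.rInitA (n33 I) 32 _ (4409279 / 500000000 : ℚ) (11748253 / 1000000000 : ℚ) (2238381 / 1250000000 : ℚ) (by decide +kernel)

theorem n35 {D : Data} (I : Init D) : D.ZB 128 9 (1864152427 / 1000000000 : ℚ) (1310571377 / 1000000000 : ℚ) :=
  Data.rZB I.r9 128 _ _ (by decide +kernel)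

theorem n36 {D : Data} (I : Init D) : D.A 128 128 128 (61598577 / 1000000000000000 : ℚ) :=
  Data.rInitA (n35 I) 128 _ (20532859 / 1000000000000000 : ℚ) (5989727 / 100000000000000 : ℚ) (4556713 / 125000000000000000 : ℚ) (by decide +kernel)

theorem n37 {D : Data} (I : Init D) : D.ZB 160 9 (217822007 / 100000000 : ℚ) (176815963 / 125000000 : ℚ) :=
  Data.rZB I.r9 160 _ _ (by decide +kernel)

theorem n38 {D : Data} (I : Init D) : D.A 160 160 128 (6328557 / 1250000000000 : ℚ) :=
  Data.rInitA (n37 I) 128 _ (2109519 / 1250000000000 : ℚ) (727431 / 200000000000 : ℚ) (35409163 / 10000000000000000 : ℚ) (by decide +kernel)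

theorem n39 {D : Data} (I : Init D) : D.MU 28 24 (240310983 / 200000000 : ℚ) :=
  Data.rPwMU (n2 I) 24 _ (by decide +kernel)

theorem n40 {D : Data} (I : Init D) : D.B 28 24 (506961 / 2500000 : ℚ) :=
  Data.rU1B (n3 I) (n39 I) _ (by decide +kernel)

theorem n41 {D : Data} (I : Init D) : D.MU 28 28 (77430889 / 62500000 : ℚ) :=
  Data.rPwMU (n2 I) 28 _ (by decide +kernel)

theorem n42 {D : Data} (I : Init D) : D.B 28 28 (1196147 / 5000000 : ℚ) :=
  Data.rU1B (n4 I) (n41 I) _ (by decide +kernel)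

theorem n43 {D : Data} (I : Init D) : D.MU 28 32 (1277393883 / 1000000000 : ℚ) :=
  Data.rPwMU (n2 I) 32 _ (by decide +kernel)

theorem n44 {D : Data} (I : Init D) : D.B 28 32 (2774853 / 10000000 : ℚ) :=
  Data.rU1B (n5 I) (n43 I) _ (by decide +kernel)

theorem n45 {D : Data} (I : Init D) : D.MU 32 32 (612852411 / 500000000 : ℚ) :=
  Data.rPwMU (n7 I) 32 _ (by decide +kernel)

theorem n46 {D : Data} (I : Init D) : D.B 32 32 (141143 / 625000 : ℚ) :=
  Data.rU1B (n8 I) (n45 I) _ (by decide +kernel)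

theorem n47 {D : Data} (I : Init D) : D.MU 32 48 (1356996857 / 1000000000 : ℚ) :=
  Data.rPwMU (n7 I) 48 _ (by decide +kernel)

theorem n48 {D : Data} (I : Init D) : D.B 32 48 (17849883 / 50000000 : ℚ) :=
  Data.rU1B (n9 I) (n47 I) _ (by decide +kernel)

theorem n49 {D : Data} (I : Init D) : D.A 80 80 192 (2210757 / 25000000000000000000000 : ℚ) :=
  Data.rPwA (n25 I) 192 _ (by decide +kernel)

theorem n50 {D : Data} (I : Init D) : D.A 128 128 384 (2337287 / 10000000000000000000000000000 : ℚ) :=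
  Data.rPwA (n36 I) 384 _ (by decide +kernel)

theorem n51 {D : Data} (I : Init D) : D.A 160 160 160 (60039 / 250000000000 : ℚ) :=
  Data.rPwA (n38 I) 160 _ (by decide +kernel)

theorem n52 {D : Data} (I : Init D) : D.A 160 160 192 (711987 / 62500000000000 : ℚ) :=
  Data.rPwA (n38 I) 192 _ (by decide +kernel)

theorem n53 {D : Data} (I : Init D) : D.B 160 24 (10969767 / 100000000000 : ℚ) :=
  Data.rPwB (n40 I) 160 _ (by decide +kernel)

theorem n54 {D : Data} (I : Init D) : D.B 192 24 (17710747 / 1000000000000 : ℚ) :=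
  Data.rPwB (n40 I) 192 _ (by decide +kernel)

theorem n55 {D : Data} (I : Init D) : D.B 256 24 (46165317 / 100000000000000 : ℚ) :=
  Data.rPwB (n40 I) 256 _ (by decide +kernel)

theorem n56 {D : Data} (I : Init D) : D.B 448 24 (4088111 / 500000000000000000 : ℚ) :=
  Data.rPwB (n40 I) 448 _ (by decide +kernel)

theorem n57 {D : Data} (I : Init D) : D.B 48 28 (2153033 / 25000000 : ℚ) :=
  Data.rPwB (n42 I) 48 _ (by decide +kernel)

theorem n58 {D : Data} (I : Init D) : D.B 56 32 (36989957 / 500000000 : ℚ) :=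
  Data.rPwB (n46 I) 56 _ (by decide +kernel)

theorem n59 {D : Data} (I : Init D) : D.B 60 32 (3071187 / 50000000 : ℚ) :=
  Data.rPwB (n46 I) 60 _ (by decide +kernel)

theorem n60 {D : Data} (I : Init D) : D.B 320 32 (34497949 / 100000000000000 : ℚ) :=
  Data.rPwB (n46 I) 320 _ (by decide +kernel)

theorem n61 {D : Data} (I : Init D) : D.B 96 48 (45498399 / 1000000000 : ℚ) :=
  Data.rPwB (n48 I) 96 _ (by decide +kernel)

theorem n62 {D : Data} (I : Init D) : D.DD 24 96 (28281213 / 25000000 : ℚ) :=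
  Data.rK (n27 I) (n61 I) _ (by decide +kernel)

theorem n63 {D : Data} (I : Init D) : D.A 160 160 24 (5787863 / 50000000 : ℚ) :=
  Data.rR3 (n62 I) (n53 I) 160 (122818383 / 100000000 : ℚ) _ (by decide +kernel)

theorem n64 {D : Data} (I : Init D) : D.A 192 192 24 (2854683 / 20000000 : ℚ) :=
  Data.rR3 (n62 I) (n54 I) 192 (63986161 / 50000000 : ℚ) _ (by decide +kernel)

theorem n65 {D : Data} (I : Init D) : D.A 256 256 24 (1013449 / 5000000 : ℚ) :=
  Data.rR3 (n62 I) (n55 I) 256 (69469057 / 50000000 : ℚ) _ (by decide +kernel)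

theorem n66 {D : Data} (I : Init D) : D.A 448 448 24 (2389161 / 5000000 : ℚ) :=
  Data.rR3 (n62 I) (n56 I) 448 (17780233 / 10000000 : ℚ) _ (by decide +kernel)

theorem n67 {D : Data} (I : Init D) : D.CC 48 28 (12027721 / 10000000 : ℚ) :=
  Data.rC (n57 I) (n28 I) _ (by decide +kernel)

theorem n68 {D : Data} (I : Init D) : D.B 48 40 (3864943 / 25000000 : ℚ) :=
  Data.rR4 (n67 I) (n16 I) (13018101 / 10000000 : ℚ) _ (by decide +kernel)

theorem n69 {D : Data} (I : Init D) : D.B 48 48 (1931163 / 10000000 : ℚ) :=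
  Data.rR4 (n67 I) (n17 I) (1715407 / 1250000 : ℚ) _ (by decide +kernel)

theorem n70 {D : Data} (I : Init D) : D.CC 56 32 (7347309 / 6250000 : ℚ) :=
  Data.rC (n58 I) (n32 I) _ (by decide +kernel)

theorem n71 {D : Data} (I : Init D) : D.B 56 48 (1400127 / 10000000 : ℚ) :=
  Data.rR4 (n70 I) (n19 I) (12745957 / 10000000 : ℚ) _ (by decide +kernel)

theorem n72 {D : Data} (I : Init D) : D.B 56 56 (16823049 / 100000000 : ℚ) :=
  Data.rR4 (n70 I) (n20 I) (132719429 / 100000000 : ℚ) _ (by decide +kernel)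

theorem n73 {D : Data} (I : Init D) : D.B 56 64 (19850799 / 100000000 : ℚ) :=
  Data.rR4 (n70 I) (n21 I) (3454909 / 2500000 : ℚ) _ (by decide +kernel)

theorem n74 {D : Data} (I : Init D) : D.CC 60 32 (115642587 / 100000000 : ℚ) :=
  Data.rC (n59 I) (n34 I) _ (by decide +kernel)

theorem n75 {D : Data} (I : Init D) : D.B 60 64 (8687653 / 50000000 : ℚ) :=
  Data.rR4 (n74 I) (n23 I) (1671651 / 1250000 : ℚ) _ (by decide +kernel)

theorem n76 {D : Data} (I : Init D) : D.A 160 160 48 (53599 / 4000000 : ℚ) :=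
  Data.rPwA (n63 I) 48 _ (by decide +kernel)

theorem n77 {D : Data} (I : Init D) : D.A 192 192 48 (10186519 / 500000000 : ℚ) :=
  Data.rPwA (n64 I) 48 _ (by decide +kernel)

theorem n78 {D : Data} (I : Init D) : D.A 256 256 64 (221499 / 15625000 : ℚ) :=
  Data.rPwA (n65 I) 64 _ (by decide +kernel)

theorem n79 {D : Data} (I : Init D) : D.A 448 448 192 (3397139 / 1250000000 : ℚ) :=
  Data.rPwA (n66 I) 192 _ (by decide +kernel)

theorem n80 {D : Data} (I : Init D) : D.B 320 40 (9831669 / 2500000000000 : ℚ) :=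
  Data.rPwB (n68 I) 320 _ (by decide +kernel)

theorem n81 {D : Data} (I : Init D) : D.B 80 48 (30144577 / 500000000 : ℚ) :=
  Data.rPwB (n71 I) 80 _ (by decide +kernel)

theorem n82 {D : Data} (I : Init D) : D.B 96 48 (8594627 / 250000000 : ℚ) :=
  Data.rPwB (n71 I) 96 _ (by decide +kernel)

theorem n83 {D : Data} (I : Init D) : D.B 320 48 (13211641 / 1000000000000 : ℚ) :=
  Data.rPwB (n71 I) 320 _ (by decide +kernel)

theorem n84 {D : Data} (I : Init D) : D.B 96 56 (4709551 / 100000000 : ℚ) :=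
  Data.rPwB (n72 I) 96 _ (by decide +kernel)

theorem n85 {D : Data} (I : Init D) : D.B 112 64 (1906239 / 50000000 : ℚ) :=
  Data.rPwB (n75 I) 112 _ (by decide +kernel)

theorem n86 {D : Data} (I : Init D) : D.B 128 64 (23906863 / 1000000000 : ℚ) :=
  Data.rPwB (n75 I) 128 _ (by decide +kernel)

theorem n87 {D : Data} (I : Init D) : D.DD 24 96 (111921659 / 100000000 : ℚ) :=
  Data.rK (n27 I) (n82 I) _ (by decide +kernel)

theorem n88 {D : Data} (I : Init D) : D.A 192 192 24 (6421451 / 50000000 : ℚ) :=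
  Data.rR3 (n87 I) (n54 I) 192 (62632289 / 50000000 : ℚ) _ (by decide +kernel)

theorem n89 {D : Data} (I : Init D) : D.DD 28 96 (544264009 / 500000000 : ℚ) :=
  Data.rK (n28 I) (n84 I) _ (by decide +kernel)

theorem n90 {D : Data} (I : Init D) : D.DD 32 112 (21567087 / 20000000 : ℚ) :=
  Data.rK (n32 I) (n85 I) _ (by decide +kernel)

theorem n91 {D : Data} (I : Init D) : D.A 320 320 32 (1220527 / 10000000 : ℚ) :=
  Data.rR3 (n90 I) (n60 I) 320 (2481043 / 2000000 : ℚ) _ (by decide +kernel)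

theorem n92 {D : Data} (I : Init D) : D.CC 80 48 (113927727 / 100000000 : ℚ) :=
  Data.rC (n81 I) (n76 I) _ (by decide +kernel)

theorem n93 {D : Data} (I : Init D) : D.B 80 192 (792069 / 2000000 : ℚ) :=
  Data.rR4 (n92 I) (n49 I) (16846813 / 10000000 : ℚ) _ (by decide +kernel)

theorem n94 {D : Data} (I : Init D) : D.CC 96 48 (109173681 / 100000000 : ℚ) :=
  Data.rC (n82 I) (n77 I) _ (by decide +kernel)

theorem n95 {D : Data} (I : Init D) : D.B 96 80 (7925867 / 100000000 : ℚ) :=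
  Data.rR4 (n94 I) (n29 I) (115752379 / 100000000 : ℚ) _ (by decide +kernel)

theorem n96 {D : Data} (I : Init D) : D.B 96 96 (9684461 / 100000000 : ℚ) :=
  Data.rR4 (n94 I) (n30 I) (119188927 / 100000000 : ℚ) _ (by decide +kernel)

theorem n97 {D : Data} (I : Init D) : D.CC 128 64 (1063247107 / 1000000000 : ℚ) :=
  Data.rC (n86 I) (n78 I) _ (by decide +kernel)

theorem n98 {D : Data} (I : Init D) : D.B 128 384 (23464011 / 100000000 : ℚ) :=
  Data.rR4 (n97 I) (n50 I) (144479177 / 100000000 : ℚ) _ (by decide +kernel)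

theorem n99 {D : Data} (I : Init D) : D.A 192 192 40 (4086473 / 125000000 : ℚ) :=
  Data.rPwA (n88 I) 40 _ (by decide +kernel)

theorem n100 {D : Data} (I : Init D) : D.A 192 192 48 (8247007 / 500000000 : ℚ) :=
  Data.rPwA (n88 I) 48 _ (by decide +kernel)

theorem n101 {D : Data} (I : Init D) : D.A 320 320 80 (2602187 / 500000000 : ℚ) :=
  Data.rPwA (n91 I) 80 _ (by decide +kernel)

theorem n102 {D : Data} (I : Init D) : D.B 160 80 (14624397 / 1000000000 : ℚ) :=
  Data.rPwB (n95 I) 160 _ (by decide +kernel)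

theorem n103 {D : Data} (I : Init D) : D.B 192 80 (6281937 / 1000000000 : ℚ) :=
  Data.rPwB (n95 I) 192 _ (by decide +kernel)

theorem n104 {D : Data} (I : Init D) : D.B 448 192 (13971561 / 2500000000 : ℚ) :=
  Data.rPwB (n93 I) 448 _ (by decide +kernel)

theorem n105 {D : Data} (I : Init D) : D.B 448 384 (3128801 / 500000000 : ℚ) :=
  Data.rPwB (n98 I) 448 _ (by decide +kernel)

theorem n106 {D : Data} (I : Init D) : D.DD 40 192 (107315171 / 100000000 : ℚ) :=
  Data.rK (n99 I) (n103 I) _ (by decide +kernel)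

theorem n107 {D : Data} (I : Init D) : D.A 320 320 40 (6268417 / 100000000 : ℚ) :=
  Data.rR3 (n106 I) (n80 I) 320 (703043 / 625000 : ℚ) _ (by decide +kernel)

theorem n108 {D : Data} (I : Init D) : D.CC 96 48 (108758649 / 100000000 : ℚ) :=
  Data.rC (n82 I) (n100 I) _ (by decide +kernel)

theorem n109 {D : Data} (I : Init D) : D.B 96 80 (3776497 / 50000000 : ℚ) :=
  Data.rR4 (n108 I) (n29 I) (57509953 / 50000000 : ℚ) _ (by decide +kernel)

theorem n110 {D : Data} (I : Init D) : D.B 96 96 (9219947 / 100000000 : ℚ) :=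
  Data.rR4 (n108 I) (n30 I) (59142219 / 50000000 : ℚ) _ (by decide +kernel)

theorem n111 {D : Data} (I : Init D) : D.CC 160 80 (51741019 / 50000000 : ℚ) :=
  Data.rC (n102 I) (n101 I) _ (by decide +kernel)

theorem n112 {D : Data} (I : Init D) : D.B 160 160 (35471443 / 1000000000 : ℚ) :=
  Data.rR4 (n111 I) (n51 I) (53542661 / 50000000 : ℚ) _ (by decide +kernel)

theorem n113 {D : Data} (I : Init D) : D.A 320 320 80 (1964653 / 500000000 : ℚ) :=
  Data.rPwA (n107 I) 80 _ (by decide +kernel)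

theorem n114 {D : Data} (I : Init D) : D.B 160 80 (6747899 / 500000000 : ℚ) :=
  Data.rPwB (n109 I) 160 _ (by decide +kernel)

theorem n115 {D : Data} (I : Init D) : D.B 640 80 (33173727 / 1000000000000000 : ℚ) :=
  Data.rPwB (n109 I) 640 _ (by decide +kernel)

theorem n116 {D : Data} (I : Init D) : D.B 192 96 (8500743 / 1000000000 : ℚ) :=
  Data.rPwB (n110 I) 192 _ (by decide +kernel)

theorem n117 {D : Data} (I : Init D) : D.B 320 160 (12582233 / 10000000000 : ℚ) :=
  Data.rPwB (n112 I) 320 _ (by decide +kernel)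

theorem n118 {D : Data} (I : Init D) : D.DD 48 192 (26051089 / 25000000 : ℚ) :=
  Data.rK (n100 I) (n116 I) _ (by decide +kernel)

theorem n119 {D : Data} (I : Init D) : D.A 320 320 48 (3558421 / 100000000 : ℚ) :=
  Data.rR3 (n118 I) (n83 I) 320 (107105011 / 100000000 : ℚ) _ (by decide +kernel)

theorem n120 {D : Data} (I : Init D) : D.DD 80 320 (1009142183 / 1000000000 : ℚ) :=
  Data.rK (n113 I) (n117 I) _ (by decide +kernel)

theorem n121 {D : Data} (I : Init D) : D.A 640 640 80 (4592391 / 500000000 : ℚ) :=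
  Data.rR3 (n120 I) (n115 I) 640 (509183973 / 500000000 : ℚ) _ (by decide +kernel)

theorem n122 {D : Data} (I : Init D) : D.CC 160 80 (1031209813 / 1000000000 : ℚ) :=
  Data.rC (n114 I) (n113 I) _ (by decide +kernel)

theorem n123 {D : Data} (I : Init D) : D.B 160 160 (15864503 / 500000000 : ℚ) :=
  Data.rR4 (n122 I) (n51 I) (13292421 / 12500000 : ℚ) _ (by decide +kernel)

theorem n124 {D : Data} (I : Init D) : D.B 160 192 (1916481 / 50000000 : ℚ) :=
  Data.rR4 (n122 I) (n52 I) (53827337 / 50000000 : ℚ) _ (by decide +kernel)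

theorem n125 {D : Data} (I : Init D) : D.A 320 320 384 (2570743 / 1000000000000000000 : ℚ) :=
  Data.rPwA (n119 I) 384 _ (by decide +kernel)

theorem n126 {D : Data} (I : Init D) : D.A 640 640 160 (8436023 / 100000000000 : ℚ) :=
  Data.rPwA (n121 I) 160 _ (by decide +kernel)

theorem n127 {D : Data} (I : Init D) : D.B 320 160 (10067299 / 10000000000 : ℚ) :=
  Data.rPwB (n123 I) 320 _ (by decide +kernel)

theorem n128 {D : Data} (I : Init D) : D.CC 320 160 (2004198007 / 2000000000 : ℚ) :=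
  Data.rC (n127 I) (n126 I) _ (by decide +kernel)

theorem n129 {D : Data} (I : Init D) : D.B 320 384 (12612613 / 5000000000 : ℚ) :=
  Data.rR4 (n128 I) (n125 I) (1005045013 / 1000000000 : ℚ) _ (by decide +kernel)

theorem n130 {D : Data} (I : Init D) : D.MU 40 24 (23287027 / 20000000 : ℚ) :=
  Data.rPwMU (n11 I) 24 _ (by decide +kernel)

theorem n131 {D : Data} (I : Init D) : D.LAM 24 40 (72966843 / 62500000 : ℚ) :=
  Data.rU1L (n12 I) (n130 I) _ (by decide +kernel)

theorem n132 {D : Data} (I : Init D) : D.MU 40 28 (47770309 / 40000000 : ℚ) :=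
  Data.rPwMU (n11 I) 28 _ (by decide +kernel)

theorem n133 {D : Data} (I : Init D) : D.LAM 28 40 (239050027 / 200000000 : ℚ) :=
  Data.rU1L (n13 I) (n132 I) _ (by decide +kernel)

theorem n134 {D : Data} (I : Init D) : D.MU 40 32 (1224932247 / 1000000000 : ℚ) :=
  Data.rPwMU (n11 I) 32 _ (by decide +kernel)

theorem n135 {D : Data} (I : Init D) : D.LAM 32 40 (612624051 / 500000000 : ℚ) :=
  Data.rU1L (n14 I) (n134 I) _ (by decide +kernel)

theorem n136 {D : Data} (I : Init D) : D.CB 24 7 (247212069 / 200000000 : ℚ) (138493707 / 125000000 : ℚ) :=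
  Data.rCB I.o7_4 24 _ _ (by decide +kernel)

theorem n137 {D : Data} (I : Init D) : D.NU 24 7 (138493707 / 125000000 : ℚ) :=
  Data.rInitNU (n136 I) (by decide +kernel)

theorem n138 {D : Data} (I : Init D) : D.AO 24 24 (1316109 / 1000000000 : ℚ) :=
  Data.rInitAO (n136 I) 24 _ (1316109 / 2000000000 : ℚ) (24227023 / 50000000000 : ℚ) (8094497 / 100000000000 : ℚ) (by decide +kernel)

theorem n139 {D : Data} (I : Init D) : D.AO 24 28 (3881523 / 10000000000 : ℚ) :=
  Data.rInitAO (n136 I) 28 _ (3881523 / 20000000000 : ℚ) (678977 / 5000000000 : ℚ) (673413 / 40000000000 : ℚ) (by decide +kernel)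

theorem n140 {D : Data} (I : Init D) : D.AO 24 32 (2861887 / 25000000000 : ℚ) :=
  Data.rInitAO (n136 I) 32 _ (2861887 / 50000000000 : ℚ) (38057483 / 1000000000000 : ℚ) (875373 / 250000000000 : ℚ) (by decide +kernel)

theorem n141 {D : Data} (I : Init D) : D.CB 48 9 (1263679329 / 1000000000 : ℚ) (1156799 / 1000000 : ℚ) :=
  Data.rCB I.o9_5 48 _ _ (by decide +kernel)

theorem n142 {D : Data} (I : Init D) : D.AO 48 48 (5143737 / 100000000000 : ℚ) :=
  Data.rInitAO (n141 I) 48 _ (10136371 / 500000000000 : ℚ) (2555451 / 50000000000 : ℚ) (16417041 / 100000000000000 : ℚ) (by decide +kernel)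

theorem n143 {D : Data} (I : Init D) : D.CB 56 9 (327979383 / 250000000 : ℚ) (1183879913 / 1000000000 : ℚ) :=
  Data.rCB I.o9_5 56 _ _ (by decide +kernel)

theorem n144 {D : Data} (I : Init D) : D.AO 56 48 (96321 / 800000000 : ℚ) :=
  Data.rInitAO (n143 I) 48 _ (49665203 / 1000000000000 : ℚ) (1195409 / 10000000000 : ℚ) (537713 / 1250000000000 : ℚ) (by decide +kernel)

theorem n145 {D : Data} (I : Init D) : D.AO 56 64 (235809 / 40000000000 : ℚ) :=
  Data.rInitAO (n143 I) 64 _ (1140993 / 625000000000 : ℚ) (58887297 / 10000000000000 : ℚ) (3247287 / 1000000000000000 : ℚ) (by decide +kernel)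

theorem n146 {D : Data} (I : Init D) : D.AO 56 96 (7145189 / 500000000000000 : ℚ) :=
  Data.rInitAO (n143 I) 96 _ (2466633 / 1000000000000000 : ℚ) (14290007 / 1000000000000000 : ℚ) (1156541 / 6250000000000000000 : ℚ) (by decide +kernel)

theorem n147 {D : Data} (I : Init D) : D.CB 60 9 (668649889 / 500000000 : ℚ) (1198332381 / 1000000000 : ℚ) :=
  Data.rCB I.o9_5 60 _ _ (by decide +kernel)

theorem n148 {D : Data} (I : Init D) : D.AO 60 56 (213043 / 5000000000 : ℚ) :=
  Data.rInitAO (n147 I) 56 _ (15492999 / 1000000000000 : ℚ) (42484157 / 1000000000000 : ℚ) (3111059 / 50000000000000 : ℚ) (by decide +kernel)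

theorem n149 {D : Data} (I : Init D) : D.CB 68 9 (1390010753 / 1000000000 : ℚ) (1228448433 / 1000000000 : ℚ) :=
  Data.rCB I.o9_5 68 _ _ (by decide +kernel)

theorem n150 {D : Data} (I : Init D) : D.AO 68 64 (1379673 / 50000000000 : ℚ) :=
  Data.rInitAO (n149 I) 64 _ (8942159 / 1000000000000 : ℚ) (27559513 / 1000000000000 : ℚ) (8486539 / 500000000000000 : ℚ) (by decide +kernel)

theorem n151 {D : Data} (I : Init D) : D.CB 96 9 (1592693723 / 1000000000 : ℚ) (1343731569 / 1000000000 : ℚ) :=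
  Data.rCB I.o9_5 96 _ _ (by decide +kernel)

theorem n152 {D : Data} (I : Init D) : D.AO 96 24 (7807241 / 100000000 : ℚ) :=
  Data.rInitAO (n151 I) 24 _ (19518101 / 500000000 : ℚ) (362353 / 6250000 : ℚ) (965789 / 250000000 : ℚ) (by decide +kernel)

theorem n153 {D : Data} (I : Init D) : D.AO 96 96 (353081 / 31250000000 : ℚ) :=
  Data.rInitAO (n151 I) 96 _ (5805107 / 2500000000000 : ℚ) (5649073 / 500000000000 : ℚ) (8909 / 40000000000000 : ℚ) (by decide +kernel)

theorem n154 {D : Data} (I : Init D) : D.CB 112 9 (344327349 / 200000000 : ℚ) (1416384399 / 1000000000 : ℚ) :=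
  Data.rCB I.o9_5 112 _ _ (by decide +kernel)

theorem n155 {D : Data} (I : Init D) : D.AO 112 28 (1677783 / 20000000 : ℚ) :=
  Data.rInitAO (n154 I) 28 _ (20972287 / 500000000 : ℚ) (1637363 / 25000000 : ℚ) (5770443 / 2000000000 : ℚ) (by decide +kernel)

theorem n156 {D : Data} (I : Init D) : D.CB 120 9 (1789973243 / 1000000000 : ℚ) (1454689809 / 1000000000 : ℚ) :=
  Data.rCB I.o9_5 120 _ _ (by decide +kernel)

theorem n157 {D : Data} (I : Init D) : D.AO 120 32 (7356247 / 100000000 : ℚ) :=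
  Data.rInitAO (n156 I) 32 _ (2298827 / 62500000 : ℚ) (1516797 / 25000000 : ℚ) (17468173 / 10000000000 : ℚ) (by decide +kernel)

theorem n158 {D : Data} (I : Init D) : D.CB 136 9 (9674459 / 5000000 : ℚ) (95969769 / 62500000 : ℚ) :=
  Data.rCB I.o9_4 136 _ _ (by decide +kernel)

theorem n159 {D : Data} (I : Init D) : D.AO 136 80 (1941761 / 500000000 : ℚ) :=
  Data.rInitAO (n158 I) 80 _ (11595213 / 10000000000 : ℚ) (38823139 / 10000000000 : ℚ) (3773823 / 6250000000000 : ℚ) (by decide +kernel)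

theorem n160 {D : Data} (I : Init D) : D.AO 136 96 (12791819 / 10000000000 : ℚ) :=
  Data.rInitAO (n158 I) 96 _ (1875057 / 6250000000 : ℚ) (1279113 / 1000000000 : ℚ) (861037 / 25000000000000 : ℚ) (by decide +kernel)

theorem n161 {D : Data} (I : Init D) : D.AO 56 192 (256101 / 1250000000000000000000 : ℚ) :=
  Data.rPwAO (n145 I) 192 _ (by decide +kernel)

theorem n162 {D : Data} (I : Init D) : D.AO 136 384 (26809191 / 10000000000000000000 : ℚ) :=
  Data.rPwAO (n159 I) 384 _ (by decide +kernel)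

theorem n163 {D : Data} (I : Init D) : D.AO 136 192 (2045383 / 1250000000000 : ℚ) :=
  Data.rPwAO (n160 I) 192 _ (by decide +kernel)

theorem n164 {D : Data} (I : Init D) : D.NU 24 24 (1421150567 / 1000000000 : ℚ) :=
  Data.rPwNU (n137 I) 24 _ (by decide +kernel)

theorem n165 {D : Data} (I : Init D) : D.QQ 24 40 (10234093 / 100000000 : ℚ) :=
  Data.rQ (n40 I) 40 _ (by decide +kernel)

theorem n166 {D : Data} (I : Init D) : D.BO 24 24 (796809 / 1000000 : ℚ) :=
  Data.rG0 (n164 I) (n131 I) (n138 I) (n165 I) (2076667 / 1250000 : ℚ) _ (by decide +kernel)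

theorem n167 {D : Data} (I : Init D) : D.QQ 24 24 (25470039 / 100000000 : ℚ) :=
  Data.rQ (n40 I) 24 _ (by decide +kernel)

theorem n168 {D : Data} (I : Init D) : D.BO 48 24 (20294757 / 100000000 : ℚ) :=
  Data.rQpw (n166 I) (n167 I) 48 _ (by decide +kernel)

theorem n169 {D : Data} (I : Init D) : D.QQ 24 32 (8072527 / 50000000 : ℚ) :=
  Data.rQ (n40 I) 32 _ (by decide +kernel)

theorem n170 {D : Data} (I : Init D) : D.BO 56 24 (514581 / 4000000 : ℚ) :=
  Data.rQpw (n166 I) (n169 I) 56 _ (by decide +kernel)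

theorem n171 {D : Data} (I : Init D) : D.NU 24 28 (753442497 / 500000000 : ℚ) :=
  Data.rPwNU (n137 I) 28 _ (by decide +kernel)

theorem n172 {D : Data} (I : Init D) : D.LAM 28 44 (1216759321 / 1000000000 : ℚ) :=
  Data.rPwL (n133 I) 44 _ (by decide +kernel)

theorem n173 {D : Data} (I : Init D) : D.QQ 28 44 (10564561 / 100000000 : ℚ) :=
  Data.rQ (n42 I) 44 _ (by decide +kernel)

theorem n174 {D : Data} (I : Init D) : D.BO 24 28 (646711 / 625000 : ℚ) :=
  Data.rG0 (n171 I) (n172 I) (n139 I) (n173 I) (36684561 / 20000000 : ℚ) _ (by decide +kernel)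

theorem n175 {D : Data} (I : Init D) : D.QQ 28 36 (15897653 / 100000000 : ℚ) :=
  Data.rQ (n42 I) 36 _ (by decide +kernel)

theorem n176 {D : Data} (I : Init D) : D.BO 60 28 (164499 / 1000000 : ℚ) :=
  Data.rQpw (n174 I) (n175 I) 60 _ (by decide +kernel)

theorem n177 {D : Data} (I : Init D) : D.QQ 28 200 (36556203 / 1000000000000 : ℚ) :=
  Data.rQ (n42 I) 200 _ (by decide +kernel)

theorem n178 {D : Data} (I : Init D) : D.BO 224 28 (236413 / 6250000000 : ℚ) :=
  Data.rQpw (n174 I) (n177 I) 224 _ (by decide +kernel)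

theorem n179 {D : Data} (I : Init D) : D.QQ 28 296 (2711331 / 10000000000000 : ℚ) :=
  Data.rQ (n42 I) 296 _ (by decide +kernel)

theorem n180 {D : Data} (I : Init D) : D.BO 320 28 (2805517 / 10000000000000 : ℚ) :=
  Data.rQpw (n174 I) (n179 I) 320 _ (by decide +kernel)

theorem n181 {D : Data} (I : Init D) : D.NU 24 32 (1597791563 / 1000000000 : ℚ) :=
  Data.rPwNU (n137 I) 32 _ (by decide +kernel)

theorem n182 {D : Data} (I : Init D) : D.LAM 32 48 (79753337 / 62500000 : ℚ) :=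
  Data.rPwL (n135 I) 48 _ (by decide +kernel)

theorem n183 {D : Data} (I : Init D) : D.QQ 32 48 (11105913 / 100000000 : ℚ) :=
  Data.rQ (n44 I) 48 _ (by decide +kernel)

theorem n184 {D : Data} (I : Init D) : D.BO 24 32 (13433071 / 10000000 : ℚ) :=
  Data.rG0 (n181 I) (n182 I) (n140 I) (n183 I) (8156403 / 4000000 : ℚ) _ (by decide +kernel)

theorem n185 {D : Data} (I : Init D) : D.QQ 32 44 (6669011 / 50000000 : ℚ) :=
  Data.rQ (n44 I) 44 _ (by decide +kernel)

theorem n186 {D : Data} (I : Init D) : D.BO 68 32 (895853 / 5000000 : ℚ) :=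
  Data.rQpw (n184 I) (n185 I) 68 _ (by decide +kernel)

theorem n187 {D : Data} (I : Init D) : D.QQ 32 360 (1388951 / 20000000000000 : ℚ) :=
  Data.rQ (n44 I) 360 _ (by decide +kernel)

theorem n188 {D : Data} (I : Init D) : D.BO 384 32 (9328939 / 100000000000000 : ℚ) :=
  Data.rQpw (n184 I) (n187 I) 384 _ (by decide +kernel)

theorem n189 {D : Data} (I : Init D) : D.QQ 32 424 (37073413 / 10000000000000000 : ℚ) :=
  Data.rQ (n44 I) 424 _ (by decide +kernel)

theorem n190 {D : Data} (I : Init D) : D.BO 448 32 (49800979 / 10000000000000000 : ℚ) :=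
  Data.rQpw (n184 I) (n189 I) 448 _ (by decide +kernel)

theorem n191 {D : Data} (I : Init D) : D.QQ 48 48 (19311631 / 100000000 : ℚ) :=
  Data.rQ (n69 I) 48 _ (by decide +kernel)

theorem n192 {D : Data} (I : Init D) : D.BO 48 48 (10100049 / 10000000 : ℚ) :=
  Data.rG1 (n168 I) (n152 I) (n142 I) (n191 I) (168194427 / 100000000 : ℚ) _ (by decide +kernel)

theorem n193 {D : Data} (I : Init D) : D.QQ 48 40 (25400901 / 100000000 : ℚ) :=
  Data.rQ (n69 I) 40 _ (by decide +kernel)

theorem n194 {D : Data} (I : Init D) : D.BO 56 48 (1926159 / 2500000 : ℚ) :=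
  Data.rG1 (n170 I) (n152 I) (n144 I) (n193 I) (148068633 / 100000000 : ℚ) _ (by decide +kernel)

theorem n195 {D : Data} (I : Init D) : D.BO 96 48 (9752421 / 50000000 : ℚ) :=
  Data.rQpw (n192 I) (n191 I) 96 _ (by decide +kernel)

theorem n196 {D : Data} (I : Init D) : D.QQ 56 52 (2388401 / 12500000 : ℚ) :=
  Data.rQ (n72 I) 52 _ (by decide +kernel)

theorem n197 {D : Data} (I : Init D) : D.BO 60 56 (4263927 / 5000000 : ℚ) :=
  Data.rG1 (n176 I) (n155 I) (n148 I) (n196 I) (15931861 / 10000000 : ℚ) _ (by decide +kernel)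

theorem n198 {D : Data} (I : Init D) : D.BO 112 56 (325887 / 2000000 : ℚ) :=
  Data.rQpw (n197 I) (n196 I) 112 _ (by decide +kernel)

theorem n199 {D : Data} (I : Init D) : D.QQ 64 52 (4456221 / 20000000 : ℚ) :=
  Data.rQ (n73 I) 52 _ (by decide +kernel)

theorem n200 {D : Data} (I : Init D) : D.BO 68 64 (1874491 / 2000000 : ℚ) :=
  Data.rG1 (n186 I) (n157 I) (n150 I) (n199 I) (160258071 / 100000000 : ℚ) _ (by decide +kernel)

theorem n201 {D : Data} (I : Init D) : D.BO 120 64 (10441433 / 50000000 : ℚ) :=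
  Data.rQpw (n200 I) (n199 I) 120 _ (by decide +kernel)

theorem n202 {D : Data} (I : Init D) : D.WW 112 28 (13662443 / 10000000 : ℚ) :=
  Data.rW (n155 I) (n198 I) _ (by decide +kernel)

theorem n203 {D : Data} (I : Init D) : D.AO 224 28 (2732213 / 10000000 : ℚ) :=
  Data.rRo (n202 I) (n89 I) (n178 I) (110402663 / 100000000 : ℚ) _ (by decide +kernel)

theorem n204 {D : Data} (I : Init D) : D.AO 320 28 (454147 / 1250000 : ℚ) :=
  Data.rRo (n202 I) (n89 I) (n180 I) (15022049 / 12500000 : ℚ) _ (by decide +kernel)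

theorem n205 {D : Data} (I : Init D) : D.WW 120 32 (13932191 / 10000000 : ℚ) :=
  Data.rW (n157 I) (n201 I) _ (by decide +kernel)

theorem n206 {D : Data} (I : Init D) : D.AO 384 32 (47523 / 125000 : ℚ) :=
  Data.rRo (n205 I) (n90 I) (n188 I) (2986507 / 2500000 : ℚ) _ (by decide +kernel)

theorem n207 {D : Data} (I : Init D) : D.AO 448 32 (1100863 / 2500000 : ℚ) :=
  Data.rRo (n205 I) (n90 I) (n190 I) (124722377 / 100000000 : ℚ) _ (by decide +kernel)

theorem n208 {D : Data} (I : Init D) : D.AO 224 48 (10814961 / 100000000 : ℚ) :=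
  Data.rPwAO (n203 I) 48 _ (by decide +kernel)

theorem n209 {D : Data} (I : Init D) : D.AO 320 96 (6214993 / 200000000 : ℚ) :=
  Data.rPwAO (n204 I) 96 _ (by decide +kernel)

theorem n210 {D : Data} (I : Init D) : D.AO 384 96 (219807 / 4000000 : ℚ) :=
  Data.rPwAO (n206 I) 96 _ (by decide +kernel)

theorem n211 {D : Data} (I : Init D) : D.AO 448 192 (7290539 / 1000000000 : ℚ) :=
  Data.rPwAO (n207 I) 192 _ (by decide +kernel)

theorem n212 {D : Data} (I : Init D) : D.QQ 96 168 (16812491 / 1000000000 : ℚ) :=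
  Data.rQ (n96 I) 168 _ (by decide +kernel)

theorem n213 {D : Data} (I : Init D) : D.BO 56 96 (3046347 / 1000000 : ℚ) :=
  Data.rG1 (n194 I) (n208 I) (n146 I) (n212 I) (3849203 / 1000000 : ℚ) _ (by decide +kernel)

theorem n214 {D : Data} (I : Init D) : D.QQ 96 128 (4447343 / 100000000 : ℚ) :=
  Data.rQ (n96 I) 128 _ (by decide +kernel)

theorem n215 {D : Data} (I : Init D) : D.BO 96 96 (8175349 / 10000000 : ℚ) :=
  Data.rG1 (n195 I) (n208 I) (n153 I) (n214 I) (17537703 / 10000000 : ℚ) _ (by decide +kernel)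

theorem n216 {D : Data} (I : Init D) : D.QQ 96 40 (37803451 / 100000000 : ℚ) :=
  Data.rQ (n96 I) 40 _ (by decide +kernel)

theorem n217 {D : Data} (I : Init D) : D.BO 136 96 (30905641 / 100000000 : ℚ) :=
  Data.rQpw (n215 I) (n216 I) 136 _ (by decide +kernel)

theorem n218 {D : Data} (I : Init D) : D.QQ 192 328 (124809 / 100000000 : ℚ) :=
  Data.rQ (n124 I) 328 _ (by decide +kernel)

theorem n219 {D : Data} (I : Init D) : D.BO 56 192 (1762259 / 100000 : ℚ) :=
  Data.rG1 (n213 I) (n210 I) (n161 I) (n218 I) (18221807 / 1000000 : ℚ) _ (by decide +kernel)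

theorem n220 {D : Data} (I : Init D) : D.QQ 192 184 (23499829 / 1000000000 : ℚ) :=
  Data.rQ (n124 I) 184 _ (by decide +kernel)

theorem n221 {D : Data} (I : Init D) : D.BO 136 192 (4292721 / 5000000 : ℚ) :=
  Data.rG1 (n217 I) (n209 I) (n163 I) (n220 I) (4554471 / 2500000 : ℚ) _ (by decide +kernel)

theorem n222 {D : Data} (I : Init D) : D.QQ 192 392 (6771573 / 20000000000 : ℚ) :=
  Data.rQ (n124 I) 392 _ (by decide +kernel)

theorem n223 {D : Data} (I : Init D) : D.BO 448 192 (5966633 / 1000000000 : ℚ) :=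
  Data.rQpw (n219 I) (n222 I) 448 _ (by decide +kernel)

theorem n224 {D : Data} (I : Init D) : D.QQ 384 312 (2929471 / 1000000000 : ℚ) :=
  Data.rQ (n129 I) 312 _ (by decide +kernel)

theorem n225 {D : Data} (I : Init D) : D.BO 136 384 (2530719 / 1000000 : ℚ) :=
  Data.rG1 (n221 I) (n211 I) (n162 I) (n224 I) (109523 / 31250 : ℚ) _ (by decide +kernel)

theorem n226 {D : Data} (I : Init D) : D.BO 448 384 (1853417 / 250000000 : ℚ) :=
  Data.rQpw (n225 I) (n224 I) 448 _ (by decide +kernel)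

theorem state {D : Data} (I : Init D) : D.State 448 192 (371 / 50000 : ℚ) :=
  ⟨Data.rWkA (n79 I) _ _ _ (by decide +kernel), Data.rWkB (n104 I) _ (by decide +kernel),
    Data.rWkB (n105 I) _ (by decide +kernel), Data.rWkAO (n211 I) _ (by decide +kernel),
    Data.rWkBO (n223 I) _ (by decide +kernel), Data.rWkBO (n226 I) _ (by decide +kernel)⟩

theorem n227 {D : Data} (I : Init D) : D.B 60 24 (32739649 / 1000000000 : ℚ) :=
  Data.rPwB (n40 I) 60 _ (by decide +kernel)

theorem n228 {D : Data} (I : Init D) : D.A 60 448 24 (6210263 / 10000000 : ℚ) :=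
  Data.rR3 (n62 I) (n227 I) 448 (17780233 / 10000000 : ℚ) _ (by decide +kernel)

theorem low {D : Data} (I : Init D) (L : ℕ) (hL : Even L) (h1 : 60 ≤ L) (h2 : L ≤ 448) :
    D.gapR L (4 / 105 * Real.log (80 / 79)) := by
  exact Data.rGap (n228 I) (by decide +kernel) L hL (by omega) h2

end Crest.Agent.R347.C
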