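import Crest.Agent.R347.C.StR10_1
import Crest.Agent.R347.C.KR10_0_6

/-! R347: exact moments, one chunk of columns (generated); the second import only limits parallel memory -/

set_option autoImplicit false
set_option maxRecDepth 100000
set_option Elab.async false

namespace Crest.Agent.R347.C

def colsR10_1_0 : List (ℕ × ℕ) :=
  [(161,20), (215,20), (233,10), (323,20), (377,20), (395,20), (401,20), (403,20), (431,20), (449,20), (455,20), (457,20), (467,20), (473,20),
  (479,20), (539,20), (557,20), (563,20), (593,20), (611,20), (617,20), (629,20), (665,20), (809,20), (863,20), (881,20), (887,20), (889,20),
  (917,20), (935,20), (941,20), (943,20), (953,20), (959,20)]

def outR10_1_0 : List (List ℕ) :=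
  [[670, 0], [8240, 0], [107040, 0], [1454860, 0], [20539780, 0], [299483380, 0], [4488866720, 0], [68902378620, 0], [1079667663780, 0],
  [17224575586480, 0], [279145242249960, 7138060], [4586702265008480, 875249400], [76286029005623300, 60580161660], [1282478119156376140,
  3119222112000], [21766419075216398580, 133125783096160], [372563237357440441760, 4983164428589600], [6425316960241491099120, 169245719821486360],
  [111565222084397145700400, 5332794798605499640], [1948973839422875754704420, 158314603628628911740], [34234800454991864529146760,
  4477897735927660453840], [604350628631116537194128200, 121689194870324233821880], [10716986790833522843673709580, 3197790022521108652291600],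
  [190829940175363253684351388800, 81669960189911731026787540], [3410821703969551502914743457000, 2035366627642787201537140600],
  [61175415226657925544928017747240, 49660743683719246658452169360], [1100734633213717243368310625787340, 1189441113571150168731706099320],
  [19864246677584029047385526102220660, 28028727617725737439869285075160], [359462072068305711931045330445220860, 651043748788305011679428007718920],
  [6521440470460700996363703638608387640, 14929806746145197772049612287478280], [118596094580318186805078628050486811400,
  338473980656428430898324215562583640], [2161565167016892226490557913969315479380, 7595051925376509713567530415719324200],
  [39480158985692295142273591211550338609640, 168853337642661772492756586663191286280], [722519505558398167326953129559443020145820,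
  3722582574244065237406178542934674892040], [13247476493481711237055518107070838742818160, 81445965391071070702853663302882136110040],
  [243325180611117530472306853688147445055169740, 1769619617815468446797048206539061131280680]]

theorem runR10_1_0 : beqLL (runR2 9 stR10_1 152 35 colsR10_1_0) outR10_1_0 = true := by
  kernel_rfl


end Crest.Agent.R347.C
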