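import Crest.Agent.R347.C.StR10_1
import Crest.Agent.R347.C.KR10_0_7

/-! R347: exact moments, one chunk of columns (generated); the second import only limits parallel memory -/

set_option autoImplicit false
set_option maxRecDepth 100000
set_option Elab.async false

namespace Crest.Agent.R347.C

def colsR10_1_1 : List (ℕ × ℕ) :=
  [(961,20), (965,20), (967,20), (1025,20), (1043,20), (1049,20), (1051,20), (1079,20), (1097,20), (1103,20), (1105,20), (1115,20), (1121,20),
  (1123,20), (1127,20), (1129,20), (1151,20), (1157,20), (1159,20), (1169,20), (1175,20), (1177,20), (1181,20), (1183,10), (1193,20), (1195,20),
  (1199,20), (1241,20), (1259,20), (1265,20), (1267,20), (1277,20), (1283,20), (1285,20)]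

def outR10_1_1 : List (List ℕ) :=
  [[670, 0], [7440, 0], [89340, 0], [1139000, 0], [15240380, 0], [212280360, 0], [3059118700, 0], [45390839680, 0], [690789811540, 0],
  [10748497271620, 0], [170536513866660, 28819360], [2752795910088580, 3299294040], [45120811388906700, 215056103280], [749720475257993440,
  10497561417600], [12609832709915153280, 427031300831960], [214414520246088290740, 15303985674335880], [3681705923894648397840, 499548846267826700],
  [63777473343120650719260, 15177983577053783200], [1113608231388971156154440, 435754294569604917180], [19584471450661322365547040,
  11950232386709887230080], [346665987166604752902027860, 315600441678043792516800], [6172623015295901160095823900, 8076469319040475475481640],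
  [110498415823930155269645699320, 201250964857675930757288860], [1987763274034408104822354823460, 4901933679039460523195048600],
  [35918064451811843952473499114400, 117076289322656230293811660200], [651685827725117829755197438475900, 2748880957278549009752668087400],
  [11868500990634925892117047587265400, 63584460620057441600378804302340], [216898473593324555420648119703988880, 1451531071480945082199256928693400],
  [3976534380287510979850644352983136280, 32751718273845613938162171582428820], [73120202734116792650552827233467572540,
  731356928410555552950938516043789000], [1348223781059311947269789741483646391560, 16180360628247851828306203031251572840],
  [24922729887549443823525994721133605559940, 354994280180566350318219497442763213800], [461810476621509077947688686797281692998600,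
  7730107767294387289216733346080149331920], [8576290365706537177832280722752795757117900, 167183025379522986284931385602119497372120],
  [159603459440854811326187169740176009596989240, 3593473876758464275832304070248838066094560]]

theorem runR10_1_1 : beqLL (runR2 9 stR10_1 152 35 colsR10_1_1) outR10_1_1 = true := by
  kernel_rfl


end Crest.Agent.R347.C
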