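import Crest.Agent.R347.C.StR10_1
import Crest.Agent.R347.C.KR10_0_10

/-! R347: exact moments, one chunk of columns (generated); the second import only limits parallel memory -/

set_option autoImplicit false
set_option maxRecDepth 100000
set_option Elab.async false

namespace Crest.Agent.R347.C

def colsR10_1_4 : List (ℕ × ℕ) :=
  [(2633,20), (2635,20), (2639,20), (2641,20), (2651,20), (2653,20), (2657,20), (2659,20), (2665,20), (2699,20), (2717,20), (2723,20), (2725,20),
  (2735,20), (2741,20), (2743,20), (2747,20), (2749,20), (2771,20), (2777,20), (2779,20), (2789,20), (2795,20), (2797,20), (2801,20), (2803,20),
  (2813,20), (2815,20), (2819,20), (2821,20), (2827,20), (2843,20), (2849,20), (2851,20)]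

def outR10_1_4 : List (List ℕ) :=
  [[680, 0], [6260, 0], [65140, 0], [738840, 0], [8964580, 0], [114942040, 0], [1543852980, 0], [21578417820, 0], [312187933540, 0], [4654818484440,
  0], [71267402111780, 65222800], [1116933173384300, 6866711680], [17870883656331460, 416570408640], [291229914679855820, 19088376111720],
  [4824077478109521300, 733748576846080], [81078771809515453220, 24979888822039520], [1380493447694883114100, 777958213591480240],
  [23779150154869881567800, 22635507387153743520], [413869960605682745860780, 624315899396935504360], [7270585804350227517798200,
  16494786702204191139400], [128795051267280312482752500, 420730239199751586661720], [2298725651637365222439541040, 10422306411522723668595200],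
  [41305622547003904880461321660, 251911365782128525909850760], [746755044348488777387642111320, 5962949776131456372238524960],
  [13574996141432890637548670184220, 138643341171232842102743688600], [248009481545347313298213608771520, 3174090419265285617804915243600],
  [4551597189937108471876833223153460, 71696164722357305192714166424560], [83878133671863933894434299228088260, 1600508321738117111619198109155440],
  [1551548560512690432177922937407261820, 35360530384045233311146429098827160], [28798736458721925654315869362354613880,
  774102753957312974247393297024688680], [536226336101442165358727280187726859060, 16808991369993326874169429640207848440],
  [10013324602104407132583607674798597841600, 362351109148486502143246622892406766600], [187484210376271901053109817345810060011500,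
  7760546844897764195450441492468495365400], [3518995662828175192788808714344687824728480, 165240485179780927263153502149923011176120],
  [66200476723613200036438205210692787770376540, 3499872613867410711941028128154416728420680]]

theorem runR10_1_4 : beqLL (runR2 9 stR10_1 152 35 colsR10_1_4) outR10_1_4 = true := by
  kernel_rfl


end Crest.Agent.R347.C
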