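import Crest.Agent.R347.C.StR10_1
import Crest.Agent.R347.C.KR10_1_4

/-! R347: exact moments, one chunk of columns (generated); the second import only limits parallel memory -/

set_option autoImplicit false
set_option maxRecDepth 100000
set_option Elab.async false

namespace Crest.Agent.R347.C

def colsR10_1_10 : List (ℕ × ℕ) :=
  [(7469,20), (7475,20), (7487,20), (7493,10), (7577,20), (7583,20), (7585,20), (7595,20), (7601,20), (7603,20), (7607,20), (7609,20), (7631,20),
  (7637,20), (7639,20), (7649,20), (7655,20), (7657,20), (7661,20), (7663,20), (7673,20), (7675,20), (7679,20), (7681,10), (7709,20), (7711,20),
  (7715,20), (7717,10), (7727,20), (7729,20), (7733,20), (7811,20), (7817,20), (7819,20)]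

def outR10_1_10 : List (List ℕ) :=
  [[650, 0], [5520, 0], [55320, 0], [614660, 0], [7385640, 0], [94432720, 0], [1270697160, 0], [17847615040, 0], [260003432720, 0], [3908728589080,
  0], [60387724598380, 232830000], [955477235030360, 22920140320], [15437868889508620, 1312555691720], [254081856171423100, 57171225610720],
  [4250651538609917600, 2100517731660840], [72149796847950045660, 68662412905154400], [1240567178569546298080, 2061193925228393820],
  [21577853486290501752660, 58002866755328689600], [379203605855488256698560, 1551846878983286198380], [6725922581056932930383680,
  39877181955340854461840], [120293385401522019004834020, 991622942355021679113400], [2167634771639834733448898820, 23999688786479390112210880],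
  [39325218414218243116477067800, 567856366684817661411632480], [717826794326325889140922715040, 13181906285266223833139345560],
  [13176083153328700129661425199380, 301062115306007338539503479940], [243082393795584941637818650325080, 6780688450191855734054153839960],
  [4505341874613593398925471267534080, 150888105432487173385245465832060], [83856502040543761653199302534336940, 3322643410164155403386976463766920],
  [1566847140248741590889795215646316100, 72499122698151775821735378069749460], [29380539170091333120110063683261644820,
  1569225448744402412414901422516874440], [552729584074810695259277989312874260260, 33725008739138220434761335118063212780],
  [10429765890958595620114225841250071312100, 720250990342610420958122382141854034760], [197353770259833865948223248027473908315120,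
  15296157903184245105663895053142846247360], [3743994260069991541499907124044891540487740, 323227384831038155848167140328347693737920],
  [71197097802533974826749498851626895233973480, 6799663697355366007694556741353109446731480]]

theorem runR10_1_10 : beqLL (runR2 9 stR10_1 152 35 colsR10_1_10) outR10_1_10 = true := by
  kernel_rfl


end Crest.Agent.R347.C
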