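import Crest.Agent.R347.C.StR10_1
import Crest.Agent.R347.C.KR10_0_11

/-! R347: exact moments, one chunk of columns (generated); the second import only limits parallel memory -/

set_option autoImplicit false
set_option maxRecDepth 100000
set_option Elab.async false

namespace Crest.Agent.R347.C

def colsR10_1_5 : List (ℕ × ℕ) :=
  [(2855,20), (2857,20), (2867,20), (2869,20), (2873,20), (2875,20), (2891,20), (2893,20), (2969,20), (2987,20), (3023,20), (3041,20), (3047,20),
  (3049,20), (3059,20), (3065,20), (3067,20), (3071,20), (3073,20), (3095,20), (3101,20), (3103,20), (3113,20), (3119,20), (3121,20), (3125,20),
  (3127,20), (3137,20), (3139,20), (3143,20), (3145,20), (3185,10), (3203,20), (3209,20)]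

def outR10_1_5 : List (List ℕ) :=
  [[670, 0], [6600, 0], [72760, 0], [867120, 0], [10973800, 0], [145772700, 0], [2015758920, 0], [28835522280, 0], [424637323440, 0], [6412178118780,
  0], [98969457268780, 73409000], [1557252502706380, 7748209680], [24924376573015500, 470915576120], [405036952084780840, 21608850115920],
  [6672529605987457020, 831555427018220], [111283789262638999100, 28335541523168280], [1876808827720902924380, 883155792548312920],
  [31975891705227455606700, 25714116866521020760], [549872989264145830777580, 709671771491225117040], [9536900638011034842067620,
  18760750684664829070000], [166710609224128365972294080, 478785413974535645310820], [2935405684393713394772809480, 11866458294734598844941520],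
  [52033937256803865976274166980, 286954942927714956978579880], [928125428997408903919110568480, 6795570399044472129973915640],
  [16650820764526318607024116856920, 158071656573897097244307421320], [300329770802390280509666116566000, 3620403801377448692913134532280],
  [5444208377104765793793590851378020, 81810662929874958070762877399840], [99151179956347403130951444176873520, 1827017732809200887203031089716720],
  [1813647458189739938474740051045725080, 40380347739002346611807788458812380], [33310057577779026328004029418411994300,
  884327348244395541986697163203879560], [614116436391650484174168859105491711240, 19209544605762007199334156601646472680],
  [11362474017951701452650244640070648224240, 414252296439608774958313559192818731240], [210932692529471351875201577283767193785920,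
  8875394154798924221435306221921999468160], [3928013215205491826353311371426958802470480, 189048392852316982419091541597684578193040],
  [73362808272499308059722500883701327534481060, 4005643405032844895728279371838781795282720]]

theorem runR10_1_5 : beqLL (runR2 9 stR10_1 152 35 colsR10_1_5) outR10_1_5 = true := by
  kernel_rfl


end Crest.Agent.R347.C
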