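import Crest.Agent.R347.C.StR10_1
import Crest.Agent.R347.C.KR10_1_5

/-! R347: exact moments, one chunk of columns (generated); the second import only limits parallel memory -/

set_option autoImplicit false
set_option maxRecDepth 100000
set_option Elab.async false

namespace Crest.Agent.R347.C

def colsR10_1_11 : List (ℕ × ℕ) :=
  [(7823,20), (7835,20), (7837,10), (7841,20), (7871,20), (7873,10), (7877,20), (7889,20), (7895,20), (7949,20), (8123,10), (8135,20), (8141,20),
  (8147,20), (8159,20), (8165,10), (8195,20), (8201,10), (8213,20), (8303,20), (8321,10), (8357,10), (9089,20), (9095,10), (9107,20), (9113,20),
  (9115,20), (9119,20), (9121,20), (9131,20), (9133,20), (9137,20), (9167,20), (9169,20)]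

def outR10_1_11 : List (List ℕ) :=
  [[600, 0], [4480, 0], [41880, 0], [441880, 0], [5106480, 0], [63281060, 0], [829731000, 0], [11399197000, 0], [162899216960, 0], [2407731349460, 0],
  [36641627202440, 206310620], [572023177300440, 19309941360], [9132514509672000, 1063609531560], [148723540341618920, 44897440535560],
  [2465024217404589500, 1607420574956700], [41503707903663451200, 51416433879618000], [708691901963869155800, 1515386632577705060],
  [12254730153913368455980, 41980353358880826720], [214324869145399948925000, 1108166207597888862780], [3786826789617859617778940,
  28148221150249049611160], [67527321769448284918493320, 692996854167678788228740], [1214227786591261848238608040, 16627887756471686283692680],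
  [21998584561964065481550061100, 390502928364502175722363620], [401289178905848257799168925980, 9006556738959339028163676040],
  [7365715425156570105862661777940, 204557652363260811438953573600], [135963544229904079202441661922540, 4585104786137929400537955455200],
  [2522671577019491699081539933972640, 101611457558965904897753612698680], [47025432596631292599134126687973060, 2229693954974713803862019352175920],
  [880363237625478821438486757810640000, 48506486536154168124189446319984300], [16545846691807981287641190003323228740,
  1047282107641308026735852341160793560], [312083606299000917371632263159814215600, 22460777761862142515171522526942372540],
  [5905801069112841450152156886850657622840, 478866310914809784414132175181072166480], [112097586210244042304711661638157952622200,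
  10155853910203571667397953561817840804420], [2133626011049483897433180177502022542557820, 214376211971478844813380378963399893350880],
  [40714587516334261073608260281685765870092840, 4506168719003365870812013666288415723916200]]

theorem runR10_1_11 : beqLL (runR2 9 stR10_1 152 35 colsR10_1_11) outR10_1_11 = true := by
  kernel_rfl


end Crest.Agent.R347.C
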