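import Crest.Agent.R347.C.StR10_1
import Crest.Agent.R347.C.KR10_0_12

/-! R347: exact moments, one chunk of columns (generated); the second import only limits parallel memory -/

set_option autoImplicit false
set_option maxRecDepth 100000
set_option Elab.async false

namespace Crest.Agent.R347.C

def colsR10_1_12 : List (ℕ × ℕ) :=
  [(9173,20), (9185,20), (9191,20), (9275,20), (9281,20), (9293,20), (9329,20), (9599,20), (9601,20), (9605,20), (9607,10), (9617,20), (9619,10),
  (9623,20), (9653,20), (9659,10), (9671,10), (9761,20), (9763,20), (9767,20), (9779,20), (9815,20), (9817,10), (9821,10), (9833,20), (9839,10),
  (9841,10)]

def outR10_1_12 : List (List ℕ) :=
  [[460, 0], [3580, 0], [35080, 0], [385980, 0], [4633320, 0], [59429320, 0], [804150680, 0], [11372127060, 0], [166909660480, 0], [2528631272960, 0],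
  [39368955401280, 317999400], [627670976930000, 29341982120], [10217115994933640, 1599426619720], [169377772770744460, 66978486543720],
  [2853605349348570840, 2382956531979580], [48769847820884918620, 75841795004172960], [844206959596465047300, 2226222488297842340],
  [14780787237232973140460, 61469230279744844200], [261447670966246304472200, 1618249600258349616240], [4667266566171611089427180,
  41014140803714168823680], [84011360768843155160046480, 1007932763185429184093360], [1523578899502442176797732160, 24149131475434401615231880],
  [27818753804748185169178484040, 566469586123809363383713680], [511075732854881995278604673960, 13052831756909770390719580560],
  [9442063777577604482318468968680, 296242139131302590720250044180], [175334785607325006001932232475180, 6636599535949185335347914338040],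
  [3271123823338254911748465900457540, 147019577701017111854153415631620], [61288905605558968924238474099771620, 3225353631460231028347702074368680],
  [1152838655986396799197584546399370920, 70159881942733553563949586112179940], [21762973234684092633226312345205378720,
  1514823355072102142662043685085292480], [412197983184783437134576479218538986880, 32492303776619766372408884761930686040],
  [7831021729924686975712905685757724308520, 692902262177720760960879049758091833760], [149194791207448632291565381968533131834220,
  14700010454048871186674870786549027181860], [2849829337004430171067232500573575393962520, 310427479459849390459936568384968915080480],
  [54566969197757665709366152857293013118811300, 6528447068680213022456122470905501951446000]]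

theorem runR10_1_12 : beqLL (runR2 9 stR10_1 152 35 colsR10_1_12) outR10_1_12 = true := by
  kernel_rfl


end Crest.Agent.R347.C
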