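import Crest.Agent.R347.C.StR10_1
import Crest.Agent.R347.C.KR10_0_8

/-! R347: exact moments, one chunk of columns (generated); the second import only limits parallel memory -/

set_option autoImplicit false
set_option maxRecDepth 100000
set_option Elab.async false

namespace Crest.Agent.R347.C

def colsR10_1_2 : List (ℕ × ℕ) :=
  [(1289,20), (1313,20), (1319,20), (1321,20), (1331,20), (1337,20), (1339,10), (1343,20), (1355,20), (1361,20), (1385,20), (1391,20), (1397,20),
  (1409,20), (1415,20), (1433,20), (1511,20), (1529,20), (1535,20), (1565,20), (1583,20), (1589,20), (1601,20), (1607,20), (1613,20), (1637,20),
  (1643,20), (1655,20), (1661,20), (1667,10), (1679,20), (1727,20), (1745,20), (1751,20)]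

def outR10_1_2 : List (List ℕ) :=
  [[660, 0], [6500, 0], [70800, 0], [828900, 0], [10262640, 0], [132931760, 0], [1787749860, 0], [24823005240, 0], [354334608720, 0], [5182388030840,
  0], [77452679085320, 20433020], [1180253101873520, 2161962240], [18303871712574240, 131901339380], [288438940604066840, 6081598723680],
  [4612245023802938880, 235308688836440], [74747088909963779240, 8065188257179440], [1226403322731571514640, 252903704614123140],
  [20352185233509106252980, 7409140891296666240], [341310443368760986705560, 205748592485864071580], [5779709515119923543589740,
  5472562894097886521800], [98757059131579614448483100, 140508633635482655336840], [1701574839352186735309198760, 3503109713919385583419640],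
  [29545697753178919965074164200, 85203808142126870979217880], [516724826570201851942347888980, 2029188532448899721277344000],
  [9097622083537402271396519284200, 47461202750448924977969023800], [161175765064381733068250804449600, 1092866406953631965367813873280],
  [2872044954676481272030423839203980, 24824661778008016538039360403620], [51455739288353929164200483071707520, 557210281895121270925178689641960],
  [926558210375380689511839503296421140, 12376298069466174479589596571765720], [16763535701888051409238046394947655240,
  272346321607611383871287527203774560], [304636341960729054773778529963294913220, 5943724853286922640165346095836434980],
  [5559049140626619260114081861930317343260, 128761817317710086895027931422521727280], [101838275107528823350614232427698728173580,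
  2771019630211478088650164721246924585380], [1872452912684053539220357918703592181884820, 59279658548065844766200496860035711969920],
  [34546623286046595530105631493726918780921020, 1261357837229957685834931182638606755687960]]

theorem runR10_1_2 : beqLL (runR2 9 stR10_1 152 35 colsR10_1_2) outR10_1_2 = true := by
  kernel_rfl


end Crest.Agent.R347.C
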