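import Crest.Agent.R347.C.StR10_1
import Crest.Agent.R347.C.KR10_0_9

/-! R347: exact moments, one chunk of columns (generated); the second import only limits parallel memory -/

set_option autoImplicit false
set_option maxRecDepth 100000
set_option Elab.async false

namespace Crest.Agent.R347.C

def colsR10_1_3 : List (ℕ × ℕ) :=
  [(1763,20), (1769,20), (1799,20), (1805,20), (1817,20), (1823,10), (1871,20), (1961,20), (1979,10), (2321,20), (2339,20), (2345,20), (2347,10),
  (2375,20), (2393,20), (2399,10), (2411,10), (2483,20), (2501,20), (2507,20), (2509,20), (2537,20), (2555,20), (2561,20), (2563,20), (2573,20),
  (2579,20), (2581,20), (2585,20), (2587,20), (2609,20), (2615,20), (2617,20), (2627,20)]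

def outR10_1_3 : List (List ℕ) :=
  [[630, 0], [6620, 0], [75820, 0], [927120, 0], [11952200, 0], [161013080, 0], [2251516360, 0], [32509935140, 0], [482669705480, 0], [7342862303200,
  0], [114129012137160, 42916960], [1807874536639540, 4750764640], [29124776812182300, 300658916520], [476305772721906220, 14289593051360],
  [7894959186939073300, 567162651879380], [132450962304709631200, 19864272022811880], [2246348790644230768700, 634504409442318060],
  [38473019081973810142700, 18885766760795304880], [664795505691018366525240, 531661850932370156020], [11580208306482964144100500,
  14308864800154253878160], [203201337794262096275791100, 371131530786539661125540], [3589551786643400140753201600, 9334109788229111820296040],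
  [63798488924415310416050318680, 228733311503225500214142400], [1140295780532585048193040957780, 5482283892329911561653267160],
  [20486414159187031642699287320540, 128918387960357946983873531920], [369811926281084793925462640455360, 2981890511595303591869304513280],
  [6705109871438756878407491008057400, 67983738606339610328131114834040], [122067596164050504039974163760972500, 1530448548831969547259690963761040],
  [2230683339918783387313666293856827060, 34070409565119856115606004695707940], [40907635391795108620402757887046955880,
  750981352217645411614659171880726360], [752655993179943338608061469131776037720, 16407549736332287146043102448332114520],
  [13890592292391860682768694782836540812740, 355652519440788002790322423819108870000], [257094046932627376389216768992487904415760,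
  7654672582785439742764724321884323756520], [4771256767308795849584651549428732481227060, 163701198888692924700029624199267908684760],
  [88771244732379695758163798921846445433870720, 3480724073334481473794101592020263770688060]]

theorem runR10_1_3 : beqLL (runR2 9 stR10_1 152 35 colsR10_1_3) outR10_1_3 = true := by
  kernel_rfl


end Crest.Agent.R347.C
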