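import Crest.Agent.R347.C.StR10_1
import Crest.Agent.R347.C.KR10_1_0

/-! R347: exact moments, one chunk of columns (generated); the second import only limits parallel memory -/

set_option autoImplicit false
set_option maxRecDepth 100000
set_option Elab.async false

namespace Crest.Agent.R347.C

def colsR10_1_6 : List (ℕ × ℕ) :=
  [(3211,20), (3221,20), (3227,20), (3229,20), (3233,20), (3235,20), (3257,20), (3263,20), (3265,20), (3275,20), (3281,20), (3283,20), (3287,20),
  (3289,20), (3299,20), (3301,20), (3305,20), (3307,20), (3329,20), (3335,20), (3337,20), (3341,20), (3343,20), (3353,20), (3355,20), (3359,20),
  (3377,20), (3419,20), (3425,20), (3427,20), (3437,20), (3443,20), (3445,20), (3449,20)]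

def outR10_1_6 : List (List ℕ) :=
  [[680, 0], [6520, 0], [71220, 0], [845760, 0], [10698540, 0], [142298860, 0], [1972526300, 0], [28310770680, 0], [418610935740, 0], [6351449078580,
  0], [98568143514540, 167278800], [1560424655422640, 16913080800], [25143149892670540, 991838628080], [411569519445033200, 44141629738400],
  [6832949510425899980, 1654052588659720], [114896432100544036700, 55057100696203680], [1954384782598899384420, 1680684036196824720],
  [33593662456034926788060, 48034623282885763680], [582965599434740297038060, 1303788029092583587680], [10204898175284942416479360,
  33954199742588432161960], [180068095120904764377963300, 854910039196599881570480], [3200692010747316058131791520, 20931955284564256088495600],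
  [57276492119689539286135774820, 500641287646112604772317040], [1031350962055332567507360547200, 11738951009545739522181623120],
  [18677925139814572346609391783540, 270627539913586519506722668160], [340061166177297213408339614782640, 6148616372468024693737391458000],
  [6221901651139632037468627692399500, 137939477138471637672177246974520], [114359864696974812625796976935114920, 3060605445911161825117548135414120],
  [2110905323113851757812632113082829740, 67254756994659187386730304600464160], [39118376792905588813756302181127429760,
  1465325763616975870255239987358411240], [727600457346660555504731225463768314780, 31685874959665026081007427954043149000],
  [13579944176772246965651730142646726994900, 680584052716414579885775846735656231720], [254271355400907457330644025723220266232220,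
  14531029516390186708559673662257341734040], [4775301075133911103983951670246523276103600, 308589879539890545034947697132873088072480],
  [89934126557093432499713811406910063302131100, 6521906982941013194594111596316339385280800]]

theorem runR10_1_6 : beqLL (runR2 9 stR10_1 152 35 colsR10_1_6) outR10_1_6 = true := by
  kernel_rfl


end Crest.Agent.R347.C
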