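import Crest.Agent.R347.C.StR10_1
import Crest.Agent.R347.C.KR10_1_1

/-! R347: exact moments, one chunk of columns (generated); the second import only limits parallel memory -/

set_option autoImplicit false
set_option maxRecDepth 100000
set_option Elab.async false

namespace Crest.Agent.R347.C

def colsR10_1_7 : List (ℕ × ℕ) :=
  [(3451,20), (3461,20), (3463,20), (3467,20), (3491,20), (3497,20), (3499,20), (3503,20), (3515,20), (3517,20), (3521,20), (3539,20), (3569,20),
  (3571,20), (3575,20), (3593,20), (3695,20), (3697,20), (3707,20), (3713,20), (3715,20), (3719,20), (3743,20), (3749,20), (3751,20), (3761,20),
  (3767,20), (3769,20), (3773,20), (3785,20), (3787,20), (3791,20), (3815,20), (3821,20)]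

def outR10_1_7 : List (List ℕ) :=
  [[680, 0], [6180, 0], [63800, 0], [717000, 0], [8602920, 0], [108788720, 0], [1436766520, 0], [19683552720, 0], [278268486520, 0], [4042731960120,
  0], [60158267092360, 73241640], [914426566431080, 7238873720], [14166473937597360, 416799762600], [223263395129964020, 18261170950320],
  [3573739004607737600, 674827362645280], [58020599573118740240, 22179798499381760], [954286058761228887880, 669147781639681800],
  [15883945006123105364700, 18913727272211785000], [267313025188133371357080, 507982402814514188040], [4544703421530007165586240,
  13096198566772184015920], [77999652871383937566600080, 326548008486958538161840], [1350486810597988777460553440, 7920630081819191290323080],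
  [23574036803027589037222348640, 187732174001669812036401880], [414650248448649443698676530120, 4363521086070774265622963120],
  [7345357316556525020381330568720, 99748608843155480005131927880], [130985590383051078736720858653380, 2247864411924748830729945417800],
  [2350316039235187507706024980744160, 50034593903254550703300632287080], [42417790638026166920541125632522000, 1101819266789358312525195869387520],
  [769712770642769418408954970817850600, 24037003441402414723377936697434520], [14038469704482522252535524432917167220,
  520091431095670829770316574132657920], [257266660373096375576202537964030097880, 11172073620975175183274714685462977600],
  [4735784020065395763252645590784571076720, 238455243683693746960154801421418887720], [87543881678724633918251473897080426728520,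
  5060723281847775579834613991590000209120], [1624704258876523901101909723472403239466500, 106861733084815587669534936315858471423520],
  [30264537813738431486194567144382875687268040, 2246318822866856396489909266419723641544840]]

theorem runR10_1_7 : beqLL (runR2 9 stR10_1 152 35 colsR10_1_7) outR10_1_7 = true := by
  kernel_rfl


end Crest.Agent.R347.C
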