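import Crest.Agent.R347.C.StR10_1
import Crest.Agent.R347.C.KR10_1_2

/-! R347: exact moments, one chunk of columns (generated); the second import only limits parallel memory -/

set_option autoImplicit false
set_option maxRecDepth 100000
set_option Elab.async false

namespace Crest.Agent.R347.C

def colsR10_1_8 : List (ℕ × ℕ) :=
  [(3823,20), (3827,20), (3839,20), (3845,20), (3863,20), (3905,20), (3911,10), (3923,20), (3929,20), (3931,20), (3935,20), (3947,20), (3953,20),
  (3983,20), (3989,20), (4001,20), (4007,20), (4025,20), (4061,20), (4079,10), (4151,20), (4163,20), (4169,20), (4187,20), (4223,20), (4553,20),
  (4559,20), (4571,20), (4577,10), (4661,20), (4667,20), (4679,20), (4685,20), (4691,20)]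

def outR10_1_8 : List (List ℕ) :=
  [[650, 0], [5440, 0], [52940, 0], [567660, 0], [6557620, 0], [80405080, 0], [1035580920, 0], [13900809960, 0], [193285516380, 0], [2770437656220,
  0], [40773589498620, 58755760], [614177812920640, 5716241520], [9443667395014700, 324950225500], [147896519889260040, 14083630890120],
  [2354716583525814160, 515595294622920], [38053832511742384080, 16807787464262560], [623378848267351312840, 503420740276436260],
  [10339390105474033977140, 14138270639921712040], [173455462178658123105360, 377554601611708387440], [2940669499173271262221180,
  9683827800967404072240], [50341858192753277381520060, 240348916529135708189700], [869628602317204722376151100, 5805507328693094732673800],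
  [15149134763452824690385776280, 137078857882885516788135880], [265977835665818834028777614660, 3175149094246942362385057640],
  [4704171791025469498011461105240, 72352653253112570515654313120], [83771568120144913316932355717900, 1625727836865409502251419449160],
  [1501405604336464809541216373427440, 36088973008321289796798015699240], [27071598810464707277392499810014320, 792731481352529551831318185629720],
  [490889211210331548568976036849847560, 17253752182383609435435102792751140], [8948643845583982444719954737313802440,
  372510518970129144313977148460664000], [163944027242222061753553595592522410280, 7985643042657867079702782611140164060],
  [3017645091637981373576513017765401453960, 170120438644104407451767398516058269280], [55789529854911447461353991858912955655320,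
  3604022239210246918069962161149149410560], [1035701440249935123075148817574838684697480, 75974929945674412818939007924681518103760],
  [19302170199522785747612609353262613721238860, 1594547689758107700195943102712622987718600]]

theorem runR10_1_8 : beqLL (runR2 9 stR10_1 152 35 colsR10_1_8) outR10_1_8 = true := by
  kernel_rfl


end Crest.Agent.R347.C
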