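import Crest.Agent.R347.C.StR10_1
import Crest.Agent.R347.C.KR10_1_3

/-! R347: exact moments, one chunk of columns (generated); the second import only limits parallel memory -/

set_option autoImplicit false
set_option maxRecDepth 100000
set_option Elab.async false

namespace Crest.Agent.R347.C

def colsR10_1_9 : List (ℕ × ℕ) :=
  [(4715,20), (4721,20), (4733,20), (4739,20), (4745,20), (4757,20), (4763,20), (4787,20), (4793,20), (4799,20), (4811,20), (4883,10), (4895,20),
  (4901,20), (4907,20), (4919,20), (4955,20), (4973,20), (5201,20), (5207,20), (5219,20), (5225,20), (5243,20), (5279,20), (5381,20), (5387,20),
  (7397,10), (7415,20), (7421,20), (7423,20), (7433,20), (7439,20), (7441,10), (7445,20)]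

def outR10_1_9 : List (List ℕ) :=
  [[650, 0], [5000, 0], [46680, 0], [486980, 0], [5528200, 0], [67104600, 0], [861048140, 0], [11580118560, 0], [162162390320, 0], [2351969339260, 0],
  [35175868438440, 93910460], [540470584284040, 8912243520], [8504071023529620, 498542232260], [136650153084949840, 21373827453760],
  [2237065061538333380, 776743012342520], [37232447476517346800, 25197326851815320], [628842880360640865640, 752390125843417540],
  [10760741065673332975400, 21094938016064313120], [186298609317303987025880, 562987266410102283060], [3259173746073164805812360,
  14443414951740024789760], [57552554626582727323719420, 358806211115809622522560], [1024865709062971500868965320, 8679278815653549246248480],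
  [18388686556516906990175134620, 205315397751468047992059940], [332196940077685684406010977300, 4766111099218162671376564880],
  [6038367377012390842718466618880, 108870629002248129086153517760], [110375674203754608904533361708440, 2452665609148376788149644778280],
  [2027855165887919414836349270922440, 54594890291163202933521614237860], [37429596231575222949787535271840680, 1202600449997727432829326542111200],
  [693800814532452667508623678504626200, 26248729585007511410842263996129620], [12910463220993314965460312519824787020,
  568313258326959316196748385479968480], [241100867577003429248553676391388666000, 12216989769093212909682435818552200000],
  [4517340225939360773515391388619356377060, 260965982441418526253562796429948855320], [84895335487985238665697000972580567131960,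
  5543004059862556488252955027053968474980], [1599937384766841923658418526876006407557400, 117140325249290927139932446158951318054480],
  [30230912865495258348487387110424328737267500, 2464292934014935888029774417694700227078820]]

theorem runR10_1_9 : beqLL (runR2 9 stR10_1 152 35 colsR10_1_9) outR10_1_9 = true := by
  kernel_rfl


end Crest.Agent.R347.C
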