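import Crest.Agent.R347.C.StR10_2
import Crest.Agent.R347.C.KR10_1_8

/-! R347: exact moments, one chunk of columns (generated); the second import only limits parallel memory -/

set_option autoImplicit false
set_option maxRecDepth 100000
set_option Elab.async false

namespace Crest.Agent.R347.C

def colsR10_2_1 : List (ℕ × ℕ) :=
  [(1156,10), (1166,20), (1168,20), (1172,20), (1190,20), (1232,20), (1238,20), (1240,20), (1250,20), (1256,20), (1258,20), (1262,20), (1274,20),
  (1276,10), (1280,20), (1304,20), (1310,20), (1312,10), (1316,20), (1328,20), (1334,20), (1352,20), (1382,20), (1388,20), (1406,20), (1484,10),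
  (1502,20), (1508,20), (1520,20), (1526,20), (1532,20), (1556,20), (1562,20), (1574,20), (1580,20), (1586,20), (1598,20), (1604,10), (1628,20),
  (1634,20), (1640,10), (1652,20), (1718,20), (1724,20), (1736,20), (1742,20), (1760,10), (1790,20), (1796,10), (1952,5), (2294,20), (2312,20),
  (2318,20), (2320,20), (2330,20), (2336,20), (2338,10), (2342,20), (2366,20), (2372,20), (2384,20), (2390,10), (2456,10), (2474,20), (2480,20),
  (2482,20), (2492,20), (2498,20), (2500,20), (2504,20), (2506,20), (2528,20), (2534,20), (2536,20), (2546,20), (2552,20), (2554,20), (2558,20),
  (2560,20), (2570,20), (2572,20), (2576,20), (2578,20), (2584,20), (2600,20), (2606,20), (2608,20), (2612,20), (2614,20), (2624,20), (2626,20),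
  (2630,20), (2632,20)]

def outR10_2_1 : List (List ℕ) :=
  [[1735, 0], [17140, 0], [187880, 0], [2217960, 0], [27750940, 0], [364100960, 0], [4971290000, 0], [70229923660, 0], [1021957974480, 0],
  [15262930566520, 0], [233265966731460, 127703040], [3639108975032460, 13820131200], [57829449842004460, 857603105300], [934367638511287960,
  40062629234200], [15325183103090485480, 1566042777491020], [254800043537502377880, 54111003934797840], [4288992373187518758200,
  1707682543566130160], [73010983312967243621420, 50284307873068679280], [1255638914051296780608140, 1402047581806139658300],
  [21796983568913353106210180, 37412364530407420499760], [381622627779362449568480140, 963011535785118697270380], [6733859761992016237544011140,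
  24057204379968149790281600], [119675045448275523081326246440, 586022498882922774811571400], [2140907404965840906325186271700,
  13972562646019234412966081280], [38531586808909844780569528430100, 327078817295838047099652200500]]

theorem runR10_2_1 : beqLL (runR2 9 stR10_2 109 25 colsR10_2_1) outR10_2_1 = true := by
  kernel_rfl


end Crest.Agent.R347.C
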