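import Crest.Agent.R347.C.StR10_2
import Crest.Agent.R347.C.KR10_1_9

/-! R347: exact moments, one chunk of columns (generated); the second import only limits parallel memory -/

set_option autoImplicit false
set_option maxRecDepth 100000
set_option Elab.async false

namespace Crest.Agent.R347.C

def colsR10_2_2 : List (ℕ × ℕ) :=
  [(2638,20), (2648,20), (2650,20), (2656,10), (2690,20), (2696,20), (2698,20), (2708,20), (2714,20), (2716,20), (2720,20), (2722,20), (2732,20),
  (2734,20), (2738,20), (2740,20), (2746,20), (2762,20), (2768,20), (2770,20), (2774,20), (2776,20), (2786,20), (2788,20), (2792,20), (2794,20),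
  (2800,10), (2810,20), (2812,20), (2840,20), (2842,20), (2846,20), (2848,20), (2864,20), (2866,20), (2960,20), (2966,20), (2968,10), (2978,20),
  (2984,10), (3014,20), (3020,20), (3022,20), (3032,20), (3038,20), (3040,20), (3044,20), (3046,20), (3056,20), (3058,20), (3062,20), (3064,20),
  (3086,20), (3092,20), (3094,20), (3098,20), (3100,20), (3110,20), (3112,20), (3116,20), (3118,20), (3134,20), (3136,10), (3176,20), (3182,10),
  (3194,20), (3200,20), (3202,20), (3206,20), (3208,20), (3218,20), (3220,20), (3224,20), (3226,20), (3248,10), (3254,20), (3256,20), (3260,20),
  (3262,20), (3272,20), (3274,20), (3278,20), (3280,10), (3296,20), (3326,20), (3328,20), (3332,20), (3350,20), (3416,10), (3418,20), (3422,20),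
  (3424,10), (3434,20)]

def outR10_2_2 : List (List ℕ) :=
  [[1760, 0], [16280, 0], [172100, 0], [1986360, 0], [24514900, 0], [319219880, 0], [4345046280, 0], [61394584300, 0], [895686287100, 0],
  [13433828877540, 0], [206411447377820, 287741560], [3239606317912100, 29451798640], [51810168835257180, 1743816255760], [842569698525511320,
  78232971015760], [13909165470733142680, 2951876037570200], [232726264933448183940, 98858907000737040], [3941601090816179488080,
  3034341358383501280], [67497954826074446821480, 87153051270329068120], [1167531260284821851625780, 2376273682917148248880],
  [20381082408060223214323880, 62141841201604245741760], [358782406905564693935947680, 1570632355970759264941000], [6364750971251037687968272380,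
  38592956336695769659042320], [113713170759459338582702188960, 926114859995077446158614000], [2044932349905968967921889776680,
  21782919814614495246105322680], [36997220683070464645372363996300, 503647993554869122955721873240]]

theorem runR10_2_2 : beqLL (runR2 9 stR10_2 109 25 colsR10_2_2) outR10_2_2 = true := by
  kernel_rfl


end Crest.Agent.R347.C
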