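import Crest.Agent.R347.C.StR10_2
import Crest.Agent.R347.C.KR10_1_10

/-! R347: exact moments, one chunk of columns (generated); the second import only limits parallel memory -/

set_option autoImplicit false
set_option maxRecDepth 100000
set_option Elab.async false

namespace Crest.Agent.R347.C

def colsR10_2_3 : List (ℕ × ℕ) :=
  [(3436,20), (3440,20), (3458,20), (3488,20), (3490,20), (3494,20), (3512,10), (3692,20), (3704,20), (3706,20), (3710,20), (3740,20), (3742,20),
  (3746,20), (3758,20), (3760,10), (3764,20), (3782,20), (3818,20), (3836,10), (3904,5), (3908,10), (3920,20), (3926,20), (3944,20), (3980,20),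
  (4544,10), (4550,20), (4556,10), (4568,10), (4652,20), (4658,20), (4664,20), (4676,20), (4682,20), (4712,20), (4718,20), (4730,20), (4736,10),
  (4880,5), (4892,20), (5198,20), (5216,10), (7388,20), (7394,10), (7406,20), (7412,20), (7414,20), (7418,20), (7420,10), (7430,20), (7432,10),
  (7436,20), (7466,20), (7472,10), (7484,10), (7568,10), (7574,20), (7576,20), (7580,20), (7582,20), (7592,20), (7594,20), (7598,20), (7600,20),
  (7628,20), (7630,20), (7634,20), (7636,20), (7646,20), (7648,20), (7652,20), (7654,10), (7706,20), (7808,10), (7810,10), (7814,20), (7868,10),
  (8120,10), (8132,20), (8138,10), (9086,20), (9088,10), (9092,10), (9104,20), (9106,20), (9110,20), (9112,10), (9272,5), (9596,10), (9598,10),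
  (9760,5)]

def outR10_2_3 : List (List ℕ) :=
  [[1520, 0], [12340, 0], [119560, 0], [1290240, 0], [15110860, 0], [188856480, 0], [2490046440, 0], [34340649880, 0], [492116324760, 0],
  [7289495845520, 0], [111130050570100, 431834520], [1737485021869480, 42119864800], [27775572297506500, 2394263471800], [452843860254153960,
  103683415372360], [7513203856741019880, 3792323531999940], [126610292497914032300, 123541532397499440], [2163527615242217871940,
  3699253492984671300], [37434968015894593091760, 103912523337683747120], [655031490856998588558580, 2776903167873121079260],
  [11577902781205529226988180, 71311297448043284341600], [206514351960405850467912540, 1772952501433883069673240], [3713998214776795223962162520,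
  42918012194022935062332920], [67292299332048306693175046680, 1016014026996947500042248560], [1227494884259787621770983569200,
  23604304686497343649850234640], [22528683917043240971679231128800, 539671358631249594591608942320]]

theorem runR10_2_3 : beqLL (runR2 9 stR10_2 109 25 colsR10_2_3) outR10_2_3 = true := by
  kernel_rfl


end Crest.Agent.R347.C
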