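import Crest.Agent.R347.C.StR10_3t
import Crest.Agent.R347.C.KR10_1_12

/-! R347: exact moments, one chunk of columns (generated); the second import only limits parallel memory -/

set_option autoImplicit false
set_option maxRecDepth 100000
set_option Elab.async false

namespace Crest.Agent.R347.C

def colsR10_3t_2 : List (ℕ × ℕ) :=
  [(1625,20), (1715,20), (1733,10), (2272,10), (2273,20), (2276,10), (2278,10), (2279,20), (2281,20), (2282,20), (2284,20), (2285,20), (2287,10),
  (2288,20), (2290,20), (2291,20), (2293,20), (2297,20), (2299,10), (2300,20), (2302,20), (2303,20), (2306,20), (2308,10), (2309,20), (2311,20),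
  (2315,20), (2317,10), (2324,20), (2327,20), (2329,10), (2333,20), (2354,20), (2357,20), (2360,10), (2363,20), (2369,10), (2381,10), (2440,5),
  (2441,20), (2443,10), (2444,20), (2446,10), (2447,20), (2450,10), (2453,10), (2459,10), (2461,20), (2462,20), (2464,20), (2465,20), (2467,20),
  (2468,20), (2470,20), (2471,20), (2473,20), (2476,20), (2477,20), (2479,20), (2486,20), (2488,20), (2489,20), (2491,20), (2494,20), (2495,20),
  (2497,20), (2503,20), (2515,20), (2516,20), (2518,20), (2519,20), (2522,20), (2524,20), (2525,20), (2527,20), (2530,20), (2531,20), (2533,20),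
  (2540,20), (2542,20), (2543,20), (2545,20), (2548,10), (2549,20), (2551,20), (2557,20), (2567,20), (2569,20), (2575,20), (2596,20), (2597,20),
  (2599,20), (2603,20), (2605,20), (2611,20), (2621,20), (2623,20), (2684,10), (2686,20), (2687,20), (2689,20), (2692,10), (2693,20), (2695,20),
  (2702,10), (2704,20), (2705,20), (2707,20), (2711,20), (2713,20), (2719,20), (2729,20), (2731,20), (2758,20), (2759,20), (2761,20), (2765,20),
  (2767,20), (2783,20), (2785,20), (2839,20), (2954,20), (2956,10), (2957,20), (2959,20), (2963,20), (2972,10), (2975,20), (3008,20), (3010,20),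
  (3011,20), (3013,20), (3017,20), (3019,20), (3026,10), (3028,10), (3029,20), (3031,20), (3035,20), (3037,20), (3053,20), (3055,20), (3083,20),
  (3085,20), (3089,20), (3091,20), (3107,20), (3172,5), (3173,20), (3175,10), (3179,10), (3191,20), (3193,20), (3197,20), (3199,20), (3215,20),
  (3245,20), (3251,20), (3269,10), (3701,20), (3737,20), (4547,10), (4649,20), (4655,20), (7381,2), (7382,10), (7384,10), (7385,20), (7387,10),
  (7391,10), (7402,10), (7403,20), (7405,20), (7409,20), (7411,10), (7463,10), (7564,5), (7565,20), (7571,20), (7573,20), (7591,10), (7625,10),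
  (7627,10), (9085,10)]

def outR10_3t_2 : List (List ℕ) :=
  [[3217, 0], [31250, 0], [341200, 0], [4044940, 0], [51117500, 0], [680355420, 0], [9455045100, 0], [136308830000, 0], [2028141239320, 0],
  [31016746230800, 0], [485895599394900, 472756180], [7775038924484000, 51391688800], [126772897276902680, 3196967355760]]

theorem runR10_3t_2 : beqLL (runR2 9 stR10_3t 57 13 colsR10_3t_2) outR10_3t_2 = true := by
  kernel_rfl


end Crest.Agent.R347.C
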