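import Crest.Agent.R347.FlipU
import Crest.Agent.R347.FiltA
import Crest.Agent.R347.Gen
import Crest.Agent.R347.C.KR10_0_0
import Crest.Agent.R347.C.KR10_0_1
import Crest.Agent.R347.C.KR10_0_10
import Crest.Agent.R347.C.KR10_0_11
import Crest.Agent.R347.C.KR10_0_12
import Crest.Agent.R347.C.KR10_0_2
import Crest.Agent.R347.C.KR10_0_3
import Crest.Agent.R347.C.KR10_0_4
import Crest.Agent.R347.C.KR10_0_5
import Crest.Agent.R347.C.KR10_0_6
import Crest.Agent.R347.C.KR10_0_7
import Crest.Agent.R347.C.KR10_0_8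
import Crest.Agent.R347.C.KR10_0_9
import Crest.Agent.R347.C.KR10_1_0
import Crest.Agent.R347.C.KR10_1_1
import Crest.Agent.R347.C.KR10_1_10
import Crest.Agent.R347.C.KR10_1_11
import Crest.Agent.R347.C.KR10_1_12
import Crest.Agent.R347.C.KR10_1_2
import Crest.Agent.R347.C.KR10_1_3
import Crest.Agent.R347.C.KR10_1_4
import Crest.Agent.R347.C.KR10_1_5
import Crest.Agent.R347.C.KR10_1_6
import Crest.Agent.R347.C.KR10_1_7
import Crest.Agent.R347.C.KR10_1_8
import Crest.Agent.R347.C.KR10_1_9
import Crest.Agent.R347.C.KR10_2_0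
import Crest.Agent.R347.C.KR10_2_1
import Crest.Agent.R347.C.KR10_2_2
import Crest.Agent.R347.C.KR10_2_3
import Crest.Agent.R347.C.KR10_3t_0
import Crest.Agent.R347.C.KR10_3t_2

/-! R347: sector moments and quadrature bounds, ring (generated) -/

set_option autoImplicit false
set_option maxRecDepth 100000
set_option Elab.async false

namespace Crest.Agent.R347.C

theorem ebR10_7 : EB (gR 10 7) (10148575029286320700000000000000000000000000000000000000000000000000000000 : ℚ) (10148575029286320800000000000000000000000000000000000000000000000000000000 : ℚ) :=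
  expB _ 8405173 50000 366 _ _ (by decide +kernel) (by decide +kernel)

theorem ebR10_9 : EB (gR 10 9) (7334625484159323040000000000000000000000000000000000000000000000000000000000000000000000000000 : ℚ) (7334625484159323100000000000000000000000000000000000000000000000000000000000000000000000000000 : ℚ) :=
  expB _ 10806651 50000 462 _ _ (by decide +kernel) (by decide +kernel)

def colsR10_0 : List (ℕ × ℕ) := colsR10_0_0 ++ (colsR10_0_1 ++ (colsR10_0_2 ++ (colsR10_0_3 ++ (colsR10_0_4 ++ (colsR10_0_5 ++ (colsR10_0_6 ++ (colsR10_0_7 ++ (colsR10_0_8 ++ (colsR10_0_9 ++ (colsR10_0_10 ++ (colsR10_0_11 ++ (colsR10_0_12))))))))))))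

theorem orbR10_0 : orbChk 10 4 10 10 colsR10_0 = true := by kernel_rfl

theorem crR10_0_0 :
    CR (XR 10 0) colsR10_0_0 (comb 0 1 1 outR10_0_0) ∧ CR (XR 10 3) colsR10_0_0 (comb 0 1 (-1) outR10_0_0) ∧
      CF (XR 10 3) colsR10_0_0 (comb 2 3 (-1) outR10_0_0) :=
  runR4_spec 9 10 10 169 39 stR10_0 stR10_0_eq _ _ (by kernel_rfl) runR10_0_0

theorem cfR10_0_0 : CF (XR 10 0) colsR10_0_0 (comb 2 3 1 outR10_0_0) :=
  runR4_spec0 9 10 10 169 39 stR10_0 stR10_0_eq _ _ (by kernel_rfl) runR10_0_0

theorem crR10_0_1 :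
    CR (XR 10 0) colsR10_0_1 (comb 0 1 1 outR10_0_1) ∧ CR (XR 10 3) colsR10_0_1 (comb 0 1 (-1) outR10_0_1) ∧
      CF (XR 10 3) colsR10_0_1 (comb 2 3 (-1) outR10_0_1) :=
  runR4_spec 9 10 10 169 39 stR10_0 stR10_0_eq _ _ (by kernel_rfl) runR10_0_1

theorem cfR10_0_1 : CF (XR 10 0) colsR10_0_1 (comb 2 3 1 outR10_0_1) :=
  runR4_spec0 9 10 10 169 39 stR10_0 stR10_0_eq _ _ (by kernel_rfl) runR10_0_1

theorem crR10_0_2 :
    CR (XR 10 0) colsR10_0_2 (comb 0 1 1 outR10_0_2) ∧ CR (XR 10 3) colsR10_0_2 (comb 0 1 (-1) outR10_0_2) ∧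
      CF (XR 10 3) colsR10_0_2 (comb 2 3 (-1) outR10_0_2) :=
  runR4_spec 9 10 10 169 39 stR10_0 stR10_0_eq _ _ (by kernel_rfl) runR10_0_2

theorem cfR10_0_2 : CF (XR 10 0) colsR10_0_2 (comb 2 3 1 outR10_0_2) :=
  runR4_spec0 9 10 10 169 39 stR10_0 stR10_0_eq _ _ (by kernel_rfl) runR10_0_2

theorem crR10_0_3 :
    CR (XR 10 0) colsR10_0_3 (comb 0 1 1 outR10_0_3) ∧ CR (XR 10 3) colsR10_0_3 (comb 0 1 (-1) outR10_0_3) ∧
      CF (XR 10 3) colsR10_0_3 (comb 2 3 (-1) outR10_0_3) :=
  runR4_spec 9 10 10 169 39 stR10_0 stR10_0_eq _ _ (by kernel_rfl) runR10_0_3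

theorem cfR10_0_3 : CF (XR 10 0) colsR10_0_3 (comb 2 3 1 outR10_0_3) :=
  runR4_spec0 9 10 10 169 39 stR10_0 stR10_0_eq _ _ (by kernel_rfl) runR10_0_3

theorem crR10_0_4 :
    CR (XR 10 0) colsR10_0_4 (comb 0 1 1 outR10_0_4) ∧ CR (XR 10 3) colsR10_0_4 (comb 0 1 (-1) outR10_0_4) ∧
      CF (XR 10 3) colsR10_0_4 (comb 2 3 (-1) outR10_0_4) :=
  runR4_spec 9 10 10 169 39 stR10_0 stR10_0_eq _ _ (by kernel_rfl) runR10_0_4

theorem cfR10_0_4 : CF (XR 10 0) colsR10_0_4 (comb 2 3 1 outR10_0_4) :=
  runR4_spec0 9 10 10 169 39 stR10_0 stR10_0_eq _ _ (by kernel_rfl) runR10_0_4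

theorem crR10_0_5 :
    CR (XR 10 0) colsR10_0_5 (comb 0 1 1 outR10_0_5) ∧ CR (XR 10 3) colsR10_0_5 (comb 0 1 (-1) outR10_0_5) ∧
      CF (XR 10 3) colsR10_0_5 (comb 2 3 (-1) outR10_0_5) :=
  runR4_spec 9 10 10 169 39 stR10_0 stR10_0_eq _ _ (by kernel_rfl) runR10_0_5

theorem cfR10_0_5 : CF (XR 10 0) colsR10_0_5 (comb 2 3 1 outR10_0_5) :=
  runR4_spec0 9 10 10 169 39 stR10_0 stR10_0_eq _ _ (by kernel_rfl) runR10_0_5

theorem crR10_0_6 :
    CR (XR 10 0) colsR10_0_6 (comb 0 1 1 outR10_0_6) ∧ CR (XR 10 3) colsR10_0_6 (comb 0 1 (-1) outR10_0_6) ∧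
      CF (XR 10 3) colsR10_0_6 (comb 2 3 (-1) outR10_0_6) :=
  runR4_spec 9 10 10 169 39 stR10_0 stR10_0_eq _ _ (by kernel_rfl) runR10_0_6

theorem cfR10_0_6 : CF (XR 10 0) colsR10_0_6 (comb 2 3 1 outR10_0_6) :=
  runR4_spec0 9 10 10 169 39 stR10_0 stR10_0_eq _ _ (by kernel_rfl) runR10_0_6

theorem crR10_0_7 :
    CR (XR 10 0) colsR10_0_7 (comb 0 1 1 outR10_0_7) ∧ CR (XR 10 3) colsR10_0_7 (comb 0 1 (-1) outR10_0_7) ∧
      CF (XR 10 3) colsR10_0_7 (comb 2 3 (-1) outR10_0_7) :=
  runR4_spec 9 10 10 169 39 stR10_0 stR10_0_eq _ _ (by kernel_rfl) runR10_0_7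

theorem cfR10_0_7 : CF (XR 10 0) colsR10_0_7 (comb 2 3 1 outR10_0_7) :=
  runR4_spec0 9 10 10 169 39 stR10_0 stR10_0_eq _ _ (by kernel_rfl) runR10_0_7

theorem crR10_0_8 :
    CR (XR 10 0) colsR10_0_8 (comb 0 1 1 outR10_0_8) ∧ CR (XR 10 3) colsR10_0_8 (comb 0 1 (-1) outR10_0_8) ∧
      CF (XR 10 3) colsR10_0_8 (comb 2 3 (-1) outR10_0_8) :=
  runR4_spec 9 10 10 169 39 stR10_0 stR10_0_eq _ _ (by kernel_rfl) runR10_0_8

theorem cfR10_0_8 : CF (XR 10 0) colsR10_0_8 (comb 2 3 1 outR10_0_8) :=
  runR4_spec0 9 10 10 169 39 stR10_0 stR10_0_eq _ _ (by kernel_rfl) runR10_0_8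

theorem crR10_0_9 :
    CR (XR 10 0) colsR10_0_9 (comb 0 1 1 outR10_0_9) ∧ CR (XR 10 3) colsR10_0_9 (comb 0 1 (-1) outR10_0_9) ∧
      CF (XR 10 3) colsR10_0_9 (comb 2 3 (-1) outR10_0_9) :=
  runR4_spec 9 10 10 169 39 stR10_0 stR10_0_eq _ _ (by kernel_rfl) runR10_0_9

theorem cfR10_0_9 : CF (XR 10 0) colsR10_0_9 (comb 2 3 1 outR10_0_9) :=
  runR4_spec0 9 10 10 169 39 stR10_0 stR10_0_eq _ _ (by kernel_rfl) runR10_0_9

theorem crR10_0_10 :
    CR (XR 10 0) colsR10_0_10 (comb 0 1 1 outR10_0_10) ∧ CR (XR 10 3) colsR10_0_10 (comb 0 1 (-1) outR10_0_10) ∧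
      CF (XR 10 3) colsR10_0_10 (comb 2 3 (-1) outR10_0_10) :=
  runR4_spec 9 10 10 169 39 stR10_0 stR10_0_eq _ _ (by kernel_rfl) runR10_0_10

theorem cfR10_0_10 : CF (XR 10 0) colsR10_0_10 (comb 2 3 1 outR10_0_10) :=
  runR4_spec0 9 10 10 169 39 stR10_0 stR10_0_eq _ _ (by kernel_rfl) runR10_0_10

theorem crR10_0_11 :
    CR (XR 10 0) colsR10_0_11 (comb 0 1 1 outR10_0_11) ∧ CR (XR 10 3) colsR10_0_11 (comb 0 1 (-1) outR10_0_11) ∧
      CF (XR 10 3) colsR10_0_11 (comb 2 3 (-1) outR10_0_11) :=
  runR4_spec 9 10 10 169 39 stR10_0 stR10_0_eq _ _ (by kernel_rfl) runR10_0_11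

theorem cfR10_0_11 : CF (XR 10 0) colsR10_0_11 (comb 2 3 1 outR10_0_11) :=
  runR4_spec0 9 10 10 169 39 stR10_0 stR10_0_eq _ _ (by kernel_rfl) runR10_0_11

theorem crR10_0_12 :
    CR (XR 10 0) colsR10_0_12 (comb 0 1 1 outR10_0_12) ∧ CR (XR 10 3) colsR10_0_12 (comb 0 1 (-1) outR10_0_12) ∧
      CF (XR 10 3) colsR10_0_12 (comb 2 3 (-1) outR10_0_12) :=
  runR4_spec 9 10 10 169 39 stR10_0 stR10_0_eq _ _ (by kernel_rfl) runR10_0_12

theorem cfR10_0_12 : CF (XR 10 0) colsR10_0_12 (comb 2 3 1 outR10_0_12) :=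
  runR4_spec0 9 10 10 169 39 stR10_0 stR10_0_eq _ _ (by kernel_rfl) runR10_0_12

def muR10_0up : List ℤ :=
  [8954, 83080, 892900, 10496500, 132004700, 1750520860, 24241364260, 348055234300, 5153040591100, 78329199537700, 1218176742373700,
  19327518621710340, 312092647393824260, 5118716405236983260, 85127694692955071620, 1433455820842939924900, 24409722829333750524540,
  419897110691186851482180, 7289933580782829459143980, 127631189744524245100763540, 2251848093020429186771968820, 40013318965066223392105568260,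
  715680978205064475727601844660, 12878853454704028499814551600180, 233074279714910001359832789397060, 4240404447090241385849802584871060,
  77529901607386309328759375869891660, 1424124259486722532451660248497518620, 26273824219930732870508127548935219140,
  486727775660702893057716658609146958620, 9051826894890121484375606742647166746060, 168959012322799660211281662017214779848340,
  3164725911136410358596466052706694412022140, 59473165137137967490762480745095011902864820, 1121145679053257571567082563768323261922460620,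
  21197739905468311641988842919666956650700324660, 401918666192935386052486677662498898246750212300,
  7640929304125217506231363236218676067353226802220, 145631456573196272166084505065079900177976611526660]

theorem momR10_0up : Mom (PF 10 ((1 : ℤ) : ℝ)) (XR 10 0) 2 muR10_0up :=
  momF 10 0 4 colsR10_0 _ _ _ (1)
    (CR.append crR10_0_0.1 (CR.append crR10_0_1.1 (CR.append crR10_0_2.1 (CR.append crR10_0_3.1 (CR.append crR10_0_4.1 (CR.append crR10_0_5.1 (CR.append crR10_0_6.1 (CR.append crR10_0_7.1 (CR.append crR10_0_8.1 (CR.append crR10_0_9.1 (CR.append crR10_0_10.1 (CR.append crR10_0_11.1 crR10_0_12.1))))))))))))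
    (CF.append cfR10_0_0 (CF.append cfR10_0_1 (CF.append cfR10_0_2 (CF.append cfR10_0_3 (CF.append cfR10_0_4 (CF.append cfR10_0_5 (CF.append cfR10_0_6 (CF.append cfR10_0_7 (CF.append cfR10_0_8 (CF.append cfR10_0_9 (CF.append cfR10_0_10 (CF.append cfR10_0_11 cfR10_0_12))))))))))))
    orbR10_0 (by decide +kernel)

theorem ibR10_0up : IB (AG 10 ((1 : ℤ) : ℝ) (7 : ℕ)) ((43568908362547 / 25000000000000 : ℚ), (174288562466779 / 100000000000000 : ℚ)) ∧
    IB (AG 10 ((1 : ℤ) : ℝ) (9 : ℕ)) ((102120395843991 / 50000000000000 : ℚ), (25536389597749 / 12500000000000 : ℚ)) :=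
  quadU momR10_0up 20 432
  [1453, 826606, 1806752, 2847523, 4101232, 5511517, 7047308, 8673559, 10365964, 12079795, 13803072, 15529537, 17198561, 18777066, 20303061, 21625029,
  22588701, 23681373, 25264520]
  [1102, 819244, 1779047, 2771991, 3984009, 5359581, 6863241, 8458697, 10120602, 11807962, 13522261, 15246950, 16910132, 18506013, 20060438, 21446489,
  22485220, 23661429, 25259663]
    25271208 7 9 _ _ ebR10_7 ebR10_9 (by decide) (by kernel_rfl)

def muR10_0um : List ℤ :=
  [8952, 83060, 892620, 10492220, 131933500, 1749277460, 24218806980, 347634872660, 5145046849660, 78174869200940, 1215155233607620,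
  19267517197106540, 310884044386751620, 5094045491121642500, 84618314652530536900, 1422844219266683718620, 24187248381267919476860,
  415214202361330563863260, 7191160436874299032507980, 125546716889362112999528780, 2207882341920046849883796660, 39087191977501514466898777580,
  696206844666762230733730951540, 12470197609917872298647246854140, 224517478336409488262120178325060, 4061630542498103252363252868538460,
  73802992448302104636374187517178540, 1346593049688960969163320149092523540, 24664182620600182343817315642863791940,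
  453373292500445986937797821009259315380, 8361902473431793586642601560910270054220, 154712089064827283166880456693890959133020,
  2870986916364750533197298268323108228887420, 53425752502235526070064995757770571393030060, 996811947562948984077878272488017543674170220,
  18644681659575721962471794904648787451060365500, 349555852562919938969604830124760143393363024460,
  6568148574754533189470688727169907168026098299220, 123675256301027591212198733178774777056432151474980]

theorem momR10_0um : Mom (PF 10 ((-1 : ℤ) : ℝ)) (XR 10 0) 2 muR10_0um :=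
  momF 10 0 4 colsR10_0 _ _ _ (-1)
    (CR.append crR10_0_0.1 (CR.append crR10_0_1.1 (CR.append crR10_0_2.1 (CR.append crR10_0_3.1 (CR.append crR10_0_4.1 (CR.append crR10_0_5.1 (CR.append crR10_0_6.1 (CR.append crR10_0_7.1 (CR.append crR10_0_8.1 (CR.append crR10_0_9.1 (CR.append crR10_0_10.1 (CR.append crR10_0_11.1 crR10_0_12.1))))))))))))
    (CF.append cfR10_0_0 (CF.append cfR10_0_1 (CF.append cfR10_0_2 (CF.append cfR10_0_3 (CF.append cfR10_0_4 (CF.append cfR10_0_5 (CF.append cfR10_0_6 (CF.append cfR10_0_7 (CF.append cfR10_0_8 (CF.append cfR10_0_9 (CF.append cfR10_0_10 (CF.append cfR10_0_11 cfR10_0_12))))))))))))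
    orbR10_0 (by decide +kernel)

theorem ibR10_0um : IB (AG 10 ((-1 : ℤ) : ℝ) (7 : ℕ)) ((44279895356713 / 1000000000000000 : ℚ), (55369133704533 / 1250000000000000 : ℚ)) ∧
    IB (AG 10 ((-1 : ℤ) : ℝ) (9 : ℕ)) ((181473161668031 / 10000000000000000 : ℚ), (4543040555229 / 250000000000000 : ℚ)) :=
  quadU momR10_0um 20 423
  [402338, 1216273, 2004821, 3062705, 4298193, 5691101, 7200725, 8793777, 10456232, 12161538, 13869758, 15551484, 17215567, 18803957, 20252992,
  21522416, 22610579, 23487590, 24714135]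
  [401951, 1202841, 1965346, 2976016, 4162461, 5514354, 6984561, 8540911, 10172571, 11853217, 13535945, 15204612, 16866217, 18455960, 19915783,
  21196011, 22472244, 23466935, 24701175]
    24733552 7 9 _ _ ebR10_7 ebR10_9 (by decide) (by kernel_rfl)

def muR10_0tp : List ℤ :=
  [8954, 83080, 892900, 10496500, 132004700, 1750520860, 24241364260, 348055234300, 5153040591100, 78329199537700, 1218166111820100,
  19326595882195940, 312044704708673540, 5116784637446388540, 85061081989936223620, 1431389127083460799300, 24350310274206206066300,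
  418284442820561011320740, 7248069283741906389238060, 126582290391257025598157940, 2226313614762308076527003700, 39406269857894760286652966500,
  701532023038415181510653044660, 12554538797484303552505389927220, 225745694184785821320758883318340, 4076816198286602936742338959669460,
  73916855738290465890610398420453260, 1345061199616244968199044837518592540, 24557712497867135165036405513760101700,
  449744514874645071768948550310067567260, 8259861794251000090935982399892507916300, 152095400235517722100859217551290747877460,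
  2807453587792556036187209345683949053650300, 51938257201186689365103586889256513665235380, 962881464583923032796657191100278146725522060,
  17885776687941533776051750645124023917258719220, 332841064889459605863318344889425833559976461900,
  6204543312351379472388977523530177497899070634860, 115845933412906449277317770221979234914076806610500]

theorem momR10_0tp : Mom (PF 10 ((1 : ℤ) : ℝ)) (XR 10 3) 2 muR10_0tp :=
  momF 10 3 4 colsR10_0 _ _ _ (1)
    (CR.append crR10_0_0.2.1 (CR.append crR10_0_1.2.1 (CR.append crR10_0_2.2.1 (CR.append crR10_0_3.2.1 (CR.append crR10_0_4.2.1 (CR.append crR10_0_5.2.1 (CR.append crR10_0_6.2.1 (CR.append crR10_0_7.2.1 (CR.append crR10_0_8.2.1 (CR.append crR10_0_9.2.1 (CR.append crR10_0_10.2.1 (CR.append crR10_0_11.2.1 crR10_0_12.2.1))))))))))))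
    (CF.append crR10_0_0.2.2 (CF.append crR10_0_1.2.2 (CF.append crR10_0_2.2.2 (CF.append crR10_0_3.2.2 (CF.append crR10_0_4.2.2 (CF.append crR10_0_5.2.2 (CF.append crR10_0_6.2.2 (CF.append crR10_0_7.2.2 (CF.append crR10_0_8.2.2 (CF.append crR10_0_9.2.2 (CF.append crR10_0_10.2.2 (CF.append crR10_0_11.2.2 crR10_0_12.2.2))))))))))))
    orbR10_0 (by decide +kernel)

theorem ibR10_0tp : IB (AF 10 ((1 : ℤ) : ℝ) (7 : ℕ)) ((49643040767847 / 1000000000000000 : ℚ), (24847675225417 / 500000000000000 : ℚ)) ∧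
    IB (AF 10 ((1 : ℤ) : ℝ) (9 : ℕ)) ((209326279845087 / 10000000000000000 : ℚ), (2628666713259 / 125000000000000 : ℚ)) :=
  quadF momR10_0tp 20 424
  [569696, 1133418, 1939563, 3026856, 4281940, 5684802, 7220274, 8843308, 10523345, 12244172, 13976232, 15683584, 17358784, 18964050, 20441580,
  21856466, 22877089, 23770313, 24730274]
  [565319, 1111395, 1880249, 2916255, 4124437, 5491780, 6982791, 8564128, 10206431, 11899202, 13601259, 15285723, 16961480, 18578971, 20068527,
  21445911, 22604958, 23716903, 24703965]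
    24771555 7 9 _ _ ebR10_7 ebR10_9 (by decide) (by kernel_rfl)

def muR10_0tm : List ℤ :=
  [8952, 83060, 892620, 10492220, 131933500, 1749277460, 24218806980, 347634872660, 5145046849660, 78174869200940, 1215159466618820,
  19267820701688140, 310896800784352900, 5094448573839438180, 84628719270461858500, 1423068081078239524220, 24191092266295773981820,
  415254543148021287874620, 7190698242187113669016140, 125500811696283965551277100, 2206007032418026760372537780, 39026282286131792757114855500,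
  694442507475257164759211422580, 12422604420659911580898362868220, 223295773164859577285829328835140, 4031407661529186354869483656524060,
  73076554819938395084237878286705900, 1329532014072493912034508722949792980, 24271050835102124753520240691433985220,
  444457919690163118740498332384537474420, 8162444539703590017000403640272424557580, 150301460165705180545382036219783959961820,
  2774436160784759062381993100441293617979260, 51330841350564471336190139114521862243611180, 951710897702271823640728970764395620375302060,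
  17680403302380108153393741217492571123440172540, 329066017792215137268725147362687618785288564940,
  6135163105986069160170122630249222576049381841940, 114570944601851687814844998871618985193810812329700]

theorem momR10_0tm : Mom (PF 10 ((-1 : ℤ) : ℝ)) (XR 10 3) 2 muR10_0tm :=
  momF 10 3 4 colsR10_0 _ _ _ (-1)
    (CR.append crR10_0_0.2.1 (CR.append crR10_0_1.2.1 (CR.append crR10_0_2.2.1 (CR.append crR10_0_3.2.1 (CR.append crR10_0_4.2.1 (CR.append crR10_0_5.2.1 (CR.append crR10_0_6.2.1 (CR.append crR10_0_7.2.1 (CR.append crR10_0_8.2.1 (CR.append crR10_0_9.2.1 (CR.append crR10_0_10.2.1 (CR.append crR10_0_11.2.1 crR10_0_12.2.1))))))))))))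
    (CF.append crR10_0_0.2.2 (CF.append crR10_0_1.2.2 (CF.append crR10_0_2.2.2 (CF.append crR10_0_3.2.2 (CF.append crR10_0_4.2.2 (CF.append crR10_0_5.2.2 (CF.append crR10_0_6.2.2 (CF.append crR10_0_7.2.2 (CF.append crR10_0_8.2.2 (CF.append crR10_0_9.2.2 (CF.append crR10_0_10.2.2 (CF.append crR10_0_11.2.2 crR10_0_12.2.2))))))))))))
    orbR10_0 (by decide +kernel)

theorem ibR10_0tm : IB (AF 10 ((-1 : ℤ) : ℝ) (7 : ℕ)) ((19893922792563 / 25000000000000 : ℚ), (79581969662563 / 100000000000000 : ℚ)) ∧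
    IB (AF 10 ((-1 : ℤ) : ℝ) (9 : ℕ)) ((14908971454573 / 20000000000000 : ℚ), (9320562261681 / 12500000000000 : ℚ)) :=
  quadF momR10_0tm 20 430
  [568829, 1128498, 1929520, 3007834, 4248065, 5648616, 7172911, 8783730, 10461982, 12162933, 13868788, 15582785, 17240066, 18806998, 20335346,
  21673299, 22636616, 23422382, 25147090]
  [565062, 1109400, 1876819, 2912335, 4115817, 5487025, 6970254, 8552246, 10200978, 11871059, 13566277, 15281473, 16929926, 18510023, 20065810,
  21420942, 22439339, 23381239, 25142310]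
    25154343 7 9 _ _ ebR10_7 ebR10_9 (by decide) (by kernel_rfl)

def colsR10_1 : List (ℕ × ℕ) := colsR10_1_0 ++ (colsR10_1_1 ++ (colsR10_1_2 ++ (colsR10_1_3 ++ (colsR10_1_4 ++ (colsR10_1_5 ++ (colsR10_1_6 ++ (colsR10_1_7 ++ (colsR10_1_8 ++ (colsR10_1_9 ++ (colsR10_1_10 ++ (colsR10_1_11 ++ (colsR10_1_12))))))))))))

theorem orbR10_1 : orbChk 10 3 9 9 colsR10_1 = true := by kernel_rfl

theorem crR10_1_0 :
    CR (XR 10 0) colsR10_1_0 (comb 0 1 1 outR10_1_0) ∧ CR (XR 10 3) colsR10_1_0 (comb 0 1 (-1) outR10_1_0) :=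
  runR2_spec 9 9 9 152 35 stR10_1 stR10_1_eq _ _ (by kernel_rfl) runR10_1_0

theorem crR10_1_1 :
    CR (XR 10 0) colsR10_1_1 (comb 0 1 1 outR10_1_1) ∧ CR (XR 10 3) colsR10_1_1 (comb 0 1 (-1) outR10_1_1) :=
  runR2_spec 9 9 9 152 35 stR10_1 stR10_1_eq _ _ (by kernel_rfl) runR10_1_1

theorem crR10_1_2 :
    CR (XR 10 0) colsR10_1_2 (comb 0 1 1 outR10_1_2) ∧ CR (XR 10 3) colsR10_1_2 (comb 0 1 (-1) outR10_1_2) :=
  runR2_spec 9 9 9 152 35 stR10_1 stR10_1_eq _ _ (by kernel_rfl) runR10_1_2

theorem crR10_1_3 :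
    CR (XR 10 0) colsR10_1_3 (comb 0 1 1 outR10_1_3) ∧ CR (XR 10 3) colsR10_1_3 (comb 0 1 (-1) outR10_1_3) :=
  runR2_spec 9 9 9 152 35 stR10_1 stR10_1_eq _ _ (by kernel_rfl) runR10_1_3

theorem crR10_1_4 :
    CR (XR 10 0) colsR10_1_4 (comb 0 1 1 outR10_1_4) ∧ CR (XR 10 3) colsR10_1_4 (comb 0 1 (-1) outR10_1_4) :=
  runR2_spec 9 9 9 152 35 stR10_1 stR10_1_eq _ _ (by kernel_rfl) runR10_1_4

theorem crR10_1_5 :
    CR (XR 10 0) colsR10_1_5 (comb 0 1 1 outR10_1_5) ∧ CR (XR 10 3) colsR10_1_5 (comb 0 1 (-1) outR10_1_5) :=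
  runR2_spec 9 9 9 152 35 stR10_1 stR10_1_eq _ _ (by kernel_rfl) runR10_1_5

theorem crR10_1_6 :
    CR (XR 10 0) colsR10_1_6 (comb 0 1 1 outR10_1_6) ∧ CR (XR 10 3) colsR10_1_6 (comb 0 1 (-1) outR10_1_6) :=
  runR2_spec 9 9 9 152 35 stR10_1 stR10_1_eq _ _ (by kernel_rfl) runR10_1_6

theorem crR10_1_7 :
    CR (XR 10 0) colsR10_1_7 (comb 0 1 1 outR10_1_7) ∧ CR (XR 10 3) colsR10_1_7 (comb 0 1 (-1) outR10_1_7) :=
  runR2_spec 9 9 9 152 35 stR10_1 stR10_1_eq _ _ (by kernel_rfl) runR10_1_7

theorem crR10_1_8 :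
    CR (XR 10 0) colsR10_1_8 (comb 0 1 1 outR10_1_8) ∧ CR (XR 10 3) colsR10_1_8 (comb 0 1 (-1) outR10_1_8) :=
  runR2_spec 9 9 9 152 35 stR10_1 stR10_1_eq _ _ (by kernel_rfl) runR10_1_8

theorem crR10_1_9 :
    CR (XR 10 0) colsR10_1_9 (comb 0 1 1 outR10_1_9) ∧ CR (XR 10 3) colsR10_1_9 (comb 0 1 (-1) outR10_1_9) :=
  runR2_spec 9 9 9 152 35 stR10_1 stR10_1_eq _ _ (by kernel_rfl) runR10_1_9

theorem crR10_1_10 :
    CR (XR 10 0) colsR10_1_10 (comb 0 1 1 outR10_1_10) ∧ CR (XR 10 3) colsR10_1_10 (comb 0 1 (-1) outR10_1_10) :=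
  runR2_spec 9 9 9 152 35 stR10_1 stR10_1_eq _ _ (by kernel_rfl) runR10_1_10

theorem crR10_1_11 :
    CR (XR 10 0) colsR10_1_11 (comb 0 1 1 outR10_1_11) ∧ CR (XR 10 3) colsR10_1_11 (comb 0 1 (-1) outR10_1_11) :=
  runR2_spec 9 9 9 152 35 stR10_1 stR10_1_eq _ _ (by kernel_rfl) runR10_1_11

theorem crR10_1_12 :
    CR (XR 10 0) colsR10_1_12 (comb 0 1 1 outR10_1_12) ∧ CR (XR 10 3) colsR10_1_12 (comb 0 1 (-1) outR10_1_12) :=
  runR2_spec 9 9 9 152 35 stR10_1 stR10_1_eq _ _ (by kernel_rfl) runR10_1_12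

def muR10_1u : List ℤ :=
  [8350, 78380, 847820, 10015760, 126446100, 1682163680, 23357364260, 336134289800, 4986426685620, 75926999041040, 1182575870731600,
  18786618552715040, 303683414196757020, 4985114523951227760, 82960454390956781220, 1397581728820806251840, 23804061645462074619700,
  409472840433726756396840, 7107135853826698191151700, 124367819228700257056168640, 2192596513155591155985307200, 38920496681694192287780886800,
  695234330456170812660954198780, 12491346070764040800622225843160, 225646309766900230809706843549740, 4096606967361827934465067937176480,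
  74722429288254655075331453642537340, 1368916092708214506800129751769966640, 25181598417262945670212191717592953580,
  465010735673729404022960197684803145880, 8618231136596557004501206432653316873540, 160272641771818030132374064517611468411760,
  2990230582144841528292608469382544549512500, 55960075854687371084575775312938860616409480, 1050292232357645436444856570757006871453762840]

theorem momR10_1u : Mom (PI 10 9 9) (XR 10 0) 1 muR10_1u :=
  momR 10 0 3 9 9 colsR10_1 _ _
    (CR.append crR10_1_0.1 (CR.append crR10_1_1.1 (CR.append crR10_1_2.1 (CR.append crR10_1_3.1 (CR.append crR10_1_4.1 (CR.append crR10_1_5.1 (CR.append crR10_1_6.1 (CR.append crR10_1_7.1 (CR.append crR10_1_8.1 (CR.append crR10_1_9.1 (CR.append crR10_1_10.1 (CR.append crR10_1_11.1 crR10_1_12.1))))))))))))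
    orbR10_1 (by decide +kernel)

theorem ibR10_1u : IB (AR 10 0 9 9 (7 : ℕ)) ((442519632236271 / 10000000000000000 : ℚ), (446741278175343 / 10000000000000000 : ℚ)) ∧
    IB (AR 10 0 9 9 (9 : ℕ)) ((90400411841223 / 5000000000000000 : ℚ), (18638694806391 / 1000000000000000 : ℚ)) :=
  quadR momR10_1u 20 424
  [52991, 793619, 1901997, 3204836, 4728294, 6398800, 8177736, 10041601, 11949728, 13865928, 15760642, 17605127, 19350842, 20913556, 22330013,
  23527401, 24712871]
  [45546, 753337, 1837447, 3082908, 4553527, 6176416, 7910770, 9732214, 11604590, 13494007, 15373670, 17219364, 18983683, 20610216, 22141735,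
  23458666, 24654621]
    24781437 7 9 _ _ ebR10_7 ebR10_9 (by decide) (by kernel_rfl)

def muR10_1t : List ℤ :=
  [8350, 78380, 847820, 10015760, 126446100, 1682163680, 23357364260, 336134289800, 4986426685620, 75926999041040, 1182573094199840,
  18786346443324960, 303667807386362940, 4984431338724718000, 82935174299906029620, 1396748339428748785280, 23778810120629382921780,
  408755261793953828491640, 7087743769828152067548620, 123864454668349995403708960, 2179953290777228534031999840, 38611468035536026340953082720,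
  687851688552454715265009215100, 12318361430810332921455297739400, 221659723848350259353559789510060, 4006037286936374135802572003005280,
  72690218305638567194505762418936100, 1323809678015827434262558010946883520, 24189940728946712384822948475025526700,
  443392414536606409947123438814574938040, 8150463347018536372546016689235059814180, 150218620489636842699409502374377646663280,
  2775420332306882503433853523602351066588980, 51395082514044393884733578535096873133750440, 953748157680328465304456323130746108231420040]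

theorem momR10_1t : Mom (PI 10 9 9) (XR 10 3) 1 muR10_1t :=
  momR 10 3 3 9 9 colsR10_1 _ _
    (CR.append crR10_1_0.2 (CR.append crR10_1_1.2 (CR.append crR10_1_2.2 (CR.append crR10_1_3.2 (CR.append crR10_1_4.2 (CR.append crR10_1_5.2 (CR.append crR10_1_6.2 (CR.append crR10_1_7.2 (CR.append crR10_1_8.2 (CR.append crR10_1_9.2 (CR.append crR10_1_10.2 (CR.append crR10_1_11.2 crR10_1_12.2))))))))))))
    orbR10_1 (by decide +kernel)

theorem ibR10_1t : IB (AR 10 3 9 9 (7 : ℕ)) ((536620298901143 / 100000000000000000 : ℚ), (272573386051453 / 50000000000000000 : ℚ)) ∧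
    IB (AR 10 3 9 9 (9 : ℕ)) ((96728415148033 / 100000000000000000 : ℚ), (102822653213941 / 100000000000000000 : ℚ)) :=
  quadR momR10_1t 20 418
  [594169, 1229123, 2218795, 3522325, 5012444, 6635347, 8388981, 10217474, 12090190, 13976282, 15843431, 17653379, 19369700, 20941564, 22409902,
  23526847, 24286620]
  [585831, 1196650, 2145754, 3403007, 4840724, 6410471, 8116834, 9900776, 11734751, 13590393, 15439001, 17247671, 18986470, 20609102, 22124581,
  23235714, 24212563]
    24435670 7 9 _ _ ebR10_7 ebR10_9 (by decide) (by kernel_rfl)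

def colsR10_2 : List (ℕ × ℕ) := colsR10_2_0 ++ (colsR10_2_1 ++ (colsR10_2_2 ++ (colsR10_2_3)))

theorem orbR10_2 : orbChk 10 3 8 8 colsR10_2 = true := by kernel_rfl

theorem crR10_2_0 :
    CR (XR 10 0) colsR10_2_0 (comb 0 1 1 outR10_2_0) ∧ CR (XR 10 3) colsR10_2_0 (comb 0 1 (-1) outR10_2_0) :=
  runR2_spec 9 8 8 109 25 stR10_2 stR10_2_eq _ _ (by kernel_rfl) runR10_2_0

theorem crR10_2_1 :
    CR (XR 10 0) colsR10_2_1 (comb 0 1 1 outR10_2_1) ∧ CR (XR 10 3) colsR10_2_1 (comb 0 1 (-1) outR10_2_1) :=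
  runR2_spec 9 8 8 109 25 stR10_2 stR10_2_eq _ _ (by kernel_rfl) runR10_2_1

theorem crR10_2_2 :
    CR (XR 10 0) colsR10_2_2 (comb 0 1 1 outR10_2_2) ∧ CR (XR 10 3) colsR10_2_2 (comb 0 1 (-1) outR10_2_2) :=
  runR2_spec 9 8 8 109 25 stR10_2 stR10_2_eq _ _ (by kernel_rfl) runR10_2_2

theorem crR10_2_3 :
    CR (XR 10 0) colsR10_2_3 (comb 0 1 1 outR10_2_3) ∧ CR (XR 10 3) colsR10_2_3 (comb 0 1 (-1) outR10_2_3) :=
  runR2_spec 9 8 8 109 25 stR10_2 stR10_2_eq _ _ (by kernel_rfl) runR10_2_3

def muR10_2u : List ℤ :=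
  [6765, 65700, 724820, 8692500, 111060900, 1492297500, 20898513140, 302996163580, 4524564078980, 69302427226860, 1085175897791680, 17323353380160000,
  281281054960217340, 4636377797925267340, 77451022600876971100, 1309393581616812580920, 22375849470401429825540, 386099627867311663411000,
  6721020016210629178079720, 117935364428687860824058660, 2084619838333223475289009680, 37095540465480483807240504040, 664199097324038943417423552800,
  11960609036182761836019975980920, 216524216268580340402503068892220]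

theorem momR10_2u : Mom (PI 10 8 8) (XR 10 0) 1 muR10_2u :=
  momR 10 0 3 8 8 colsR10_2 _ _
    (CR.append crR10_2_0.1 (CR.append crR10_2_1.1 (CR.append crR10_2_2.1 crR10_2_3.1)))
    orbR10_2 (by decide +kernel)

theorem ibR10_2u : IB (AR 10 0 8 8 (7 : ℕ)) ((41703179285039 / 1000000000000000000 : ℚ), (91772967878703 / 1000000000000000000 : ℚ)) ∧
    IB (AR 10 0 8 8 (9 : ℕ)) ((22201880578081 / 10000000000000000000 : ℚ), (22732499277789 / 2500000000000000000 : ℚ)) :=
  quadR momR10_2u 20 410
  [258722, 1695122, 3420463, 5539116, 7836977, 10270898, 12762609, 15245549, 17654996, 19913363, 21899949, 23643653]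
  [228375, 1592235, 3224916, 5258811, 7479235, 9840576, 12274637, 14717854, 17118321, 19411472, 21509746, 23210845]
    23987157 7 9 _ _ ebR10_7 ebR10_9 (by decide) (by kernel_rfl)

def muR10_2t : List ℤ :=
  [6765, 65700, 724820, 8692500, 111060900, 1492297500, 20898513140, 302996163580, 4524564078980, 69302427226860, 1085174090759360, 17323169718454080,
  281270223080662140, 4635892722388185100, 77432724744690866780, 1308780244992422068680, 22356990919455316964100, 385556654051401237253640,
  6706171983337878832058120, 117545778814830020037792340, 2074737342405305318171046800, 36851778952121798128841781640, 658326240207077574165355673920,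
  11821912251477485907477658968520, 213304177940384582864439781205180]

theorem momR10_2t : Mom (PI 10 8 8) (XR 10 3) 1 muR10_2t :=
  momR 10 3 3 8 8 colsR10_2 _ _
    (CR.append crR10_2_0.2 (CR.append crR10_2_1.2 (CR.append crR10_2_2.2 crR10_2_3.2)))
    orbR10_2 (by decide +kernel)

theorem ibR10_2t : IB (AR 10 3 8 8 (7 : ℕ)) ((1669772179643 / 500000000000000000 : ℚ), (353058301311287 / 50000000000000000000 : ℚ)) ∧
    IB (AR 10 3 8 8 (9 : ℕ)) ((33848190509933 / 500000000000000000000 : ℚ), (14721419275871 / 50000000000000000000 : ℚ)) :=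
  quadR momR10_2t 20 403
  [764137, 1949339, 3683947, 5722747, 7976586, 10356009, 12794929, 15230653, 17584329, 19784409, 21652499, 23137514]
  [739058, 1846541, 3487905, 5438379, 7602208, 9903122, 12273645, 14658681, 16988753, 19195270, 21186452, 22859258]
    23561237 7 9 _ _ ebR10_7 ebR10_9 (by decide) (by kernel_rfl)

def colsR10_3t : List (ℕ × ℕ) := colsR10_3t_0 ++ (colsR10_3t_1 ++ (colsR10_3t_2))

theorem orbR10_3t : orbChk 10 3 0 7 colsR10_3t = true := by kernel_rfl

theorem crR10_3t_0 :
    CR (XR 10 0) colsR10_3t_0 (comb 0 1 1 outR10_3t_0) ∧ CR (XR 10 3) colsR10_3t_0 (comb 0 1 (-1) outR10_3t_0) :=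
  runR2_spec 9 0 7 57 13 stR10_3t stR10_3t_eq _ _ (by kernel_rfl) runR10_3t_0

theorem crR10_3t_1 :
    CR (XR 10 0) colsR10_3t_1 (comb 0 1 1 outR10_3t_1) ∧ CR (XR 10 3) colsR10_3t_1 (comb 0 1 (-1) outR10_3t_1) :=
  runR2_spec 9 0 7 57 13 stR10_3t stR10_3t_eq _ _ (by kernel_rfl) runR10_3t_1

theorem crR10_3t_2 :
    CR (XR 10 0) colsR10_3t_2 (comb 0 1 1 outR10_3t_2) ∧ CR (XR 10 3) colsR10_3t_2 (comb 0 1 (-1) outR10_3t_2) :=
  runR2_spec 9 0 7 57 13 stR10_3t stR10_3t_eq _ _ (by kernel_rfl) runR10_3t_2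

def muR10_3tu : List ℤ :=
  [9933, 109630, 1327090, 17182030, 234510450, 3341227690, 49340436670, 751071289650, 11734576401170, 187519611273790, 3056127549685750,
  50675770430771930, 853207389954589470]

theorem momR10_3tu : Mom (PI 10 0 7) (XR 10 0) 1 muR10_3tu :=
  momR 10 0 3 0 7 colsR10_3t _ _
    (CR.append crR10_3t_0.1 (CR.append crR10_3t_1.1 crR10_3t_2.1))
    orbR10_3t (by decide +kernel)

theorem ibR10_3tu : IB (AR 10 0 0 7 (7 : ℕ)) ((0 : ℚ), (14808187346291 / 12500000000000000000 : ℚ)) ∧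
    IB (AR 10 0 0 7 (9 : ℕ)) ((0 : ℚ), (13891974239879 / 500000000000000000000 : ℚ)) :=
  quadR momR10_3tu 20 397
  [1246005, 4464477, 8190381, 12139706, 16135625, 19957841]
  [1069380, 4048899, 7572447, 11345483, 15210275, 19036950]
    23213801 7 9 _ _ ebR10_7 ebR10_9 (by decide) (by kernel_rfl)

def muR10_3tt : List ℤ :=
  [9933, 109630, 1327090, 17182030, 234510450, 3341227690, 49340436670, 751071289650, 11734576401170, 187519611273790, 3056126300853030,
  50675631639209130, 853198568991043710]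

theorem momR10_3tt : Mom (PI 10 0 7) (XR 10 3) 1 muR10_3tt :=
  momR 10 3 3 0 7 colsR10_3t _ _
    (CR.append crR10_3t_0.2 (CR.append crR10_3t_1.2 crR10_3t_2.2))
    orbR10_3t (by decide +kernel)

theorem ibR10_3tt : IB (AR 10 3 0 7 (7 : ℕ)) ((0 : ℚ), (6919925240779 / 10000000000000000000 : ℚ)) ∧
    IB (AR 10 3 0 7 (9 : ℕ)) ((0 : ℚ), (138231184106459 / 10000000000000000000000 : ℚ)) :=
  quadR momR10_3tt 20 396
  [1264045, 4488799, 8201107, 12127268, 16102521, 19922540]
  [1107282, 4104990, 7615298, 11372295, 15232839, 19059482]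
    23129661 7 9 _ _ ebR10_7 ebR10_9 (by decide) (by kernel_rfl)

def ri10_7 : RI :=
  ⟨((1787036229858593 / 1000000000000000 : ℚ), (4467952329078541 / 2500000000000000 : ℚ)), ((442519632236271 / 10000000000000000 : ℚ), (446741278175343 / 10000000000000000 : ℚ)),
    ((41703179285039 / 1000000000000000000 : ℚ), (91772967878703 / 1000000000000000000 : ℚ)), (14808187346291 / 12500000000000000000 : ℚ),
    ((49643040767847 / 1000000000000000 : ℚ), (24847675225417 / 500000000000000 : ℚ)), ((19893922792563 / 25000000000000 : ℚ), (79581969662563 / 100000000000000 : ℚ)),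
    ((536620298901143 / 100000000000000000 : ℚ), (272573386051453 / 50000000000000000 : ℚ)), ((1669772179643 / 500000000000000000 : ℚ), (353058301311287 / 50000000000000000000 : ℚ)), (6919925240779 / 10000000000000000000 : ℚ)⟩

theorem ri10_7_ok : ri10_7.ok 10 (7 : ℕ) :=
  ⟨IB_AG ibR10_0up.1 ibR10_0um.1 _ (by decide +kernel), ibR10_1u.1, ibR10_2u.1, ibR10_3tu.1.le,
    IB_AF1 ibR10_0tp.1, IB_AFm ibR10_0tm.1, ibR10_1t.1, ibR10_2t.1, ibR10_3tt.1.le⟩

def ri10_9 : RI :=
  ⟨((20605552330466231 / 10000000000000000 : ℚ), (515270832510209 / 250000000000000 : ℚ)), ((90400411841223 / 5000000000000000 : ℚ), (18638694806391 / 1000000000000000 : ℚ)),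
    ((22201880578081 / 10000000000000000000 : ℚ), (22732499277789 / 2500000000000000000 : ℚ)), (13891974239879 / 500000000000000000000 : ℚ),
    ((209326279845087 / 10000000000000000 : ℚ), (2628666713259 / 125000000000000 : ℚ)), ((14908971454573 / 20000000000000 : ℚ), (9320562261681 / 12500000000000 : ℚ)),
    ((96728415148033 / 100000000000000000 : ℚ), (102822653213941 / 100000000000000000 : ℚ)), ((33848190509933 / 500000000000000000000 : ℚ), (14721419275871 / 50000000000000000000 : ℚ)), (138231184106459 / 10000000000000000000000 : ℚ)⟩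

theorem ri10_9_ok : ri10_9.ok 10 (9 : ℕ) :=
  ⟨IB_AG ibR10_0up.2 ibR10_0um.2 _ (by decide +kernel), ibR10_1u.2, ibR10_2u.2, ibR10_3tu.2.le,
    IB_AF1 ibR10_0tp.2, IB_AFm ibR10_0tm.2, ibR10_1t.2, ibR10_2t.2, ibR10_3tt.2.le⟩


end Crest.Agent.R347.C
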