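import Crest.Agent.R347.C.Der
import Crest.Agent.R347.C.QR6
import Crest.Agent.R347.C.QR7
import Crest.Agent.R347.C.QR8
import Crest.Agent.R347.C.QR9
import Crest.Agent.R347.C.QR10
import Crest.Agent.R347.C.QO2
import Crest.Agent.R347.C.QO3
import Crest.Agent.R347.C.QO4
import Crest.Agent.R347.C.QO5
import Crest.Agent.R347.C.QO6
import Crest.Agent.R347.C.QO7
import Crest.Agent.R347.C.QO8

/-! R347: filters, initial bounds and the conclusion (generated) -/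

set_option autoImplicit false
set_option maxRecDepth 100000
set_option Elab.async false

namespace Crest.Agent.R347.C

theorem sr6_7 : IB (Zs 0 0 6 (7 : ℕ)) ri6_7.z00 ∧ IB (Zs 0 3 6 (7 : ℕ)) ri6_7.z03 ∧
    IB (Zs 3 3 6 (7 : ℕ)) ri6_7.z33 ∧ IB (Zs 3 0 6 (7 : ℕ)) ri6_7.z30 ∧
    IB (Zs 3 1 6 (7 : ℕ)) ri6_7.z31 :=
  RI.secs ri6_7_ok (by decide)

theorem sr7_7 : IB (Zs 0 0 7 (7 : ℕ)) ri7_7.z00 ∧ IB (Zs 0 3 7 (7 : ℕ)) ri7_7.z03 ∧
    IB (Zs 3 3 7 (7 : ℕ)) ri7_7.z33 ∧ IB (Zs 3 0 7 (7 : ℕ)) ri7_7.z30 ∧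
    IB (Zs 3 1 7 (7 : ℕ)) ri7_7.z31 :=
  RI.secs ri7_7_ok (by decide)

theorem sr8_7 : IB (Zs 0 0 8 (7 : ℕ)) ri8_7.z00 ∧ IB (Zs 0 3 8 (7 : ℕ)) ri8_7.z03 ∧
    IB (Zs 3 3 8 (7 : ℕ)) ri8_7.z33 ∧ IB (Zs 3 0 8 (7 : ℕ)) ri8_7.z30 ∧
    IB (Zs 3 1 8 (7 : ℕ)) ri8_7.z31 :=
  RI.secs ri8_7_ok (by decide)

theorem sr9_7 : IB (Zs 0 0 9 (7 : ℕ)) ri9_7.z00 ∧ IB (Zs 0 3 9 (7 : ℕ)) ri9_7.z03 ∧
    IB (Zs 3 3 9 (7 : ℕ)) ri9_7.z33 ∧ IB (Zs 3 0 9 (7 : ℕ)) ri9_7.z30 ∧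
    IB (Zs 3 1 9 (7 : ℕ)) ri9_7.z31 :=
  RI.secs ri9_7_ok (by decide)

theorem sr10_7 : IB (Zs 0 0 10 (7 : ℕ)) ri10_7.z00 ∧ IB (Zs 0 3 10 (7 : ℕ)) ri10_7.z03 ∧
    IB (Zs 3 3 10 (7 : ℕ)) ri10_7.z33 ∧ IB (Zs 3 0 10 (7 : ℕ)) ri10_7.z30 ∧
    IB (Zs 3 1 10 (7 : ℕ)) ri10_7.z31 :=
  RI.secs ri10_7_ok (by decide)

theorem so2_7 : IB (cs 0 0 0 (7 : ℕ)) (avgP oi2_0_7.z0 oi2_1_7.z0) ∧
    IB (cs 0 3 0 (7 : ℕ)) (avgM oi2_0_7.z0 oi2_1_7.z0) ∧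
    IB (cs 3 0 0 (7 : ℕ)) (avgP (oi2_0_7.z3 0) (oi2_1_7.z3 0)) ∧
    IB (cs 3 3 0 (7 : ℕ)) (avgM (oi2_0_7.z3 0) (oi2_1_7.z3 0)) :=
  OI.secs oi2_0_7_ok oi2_1_7_ok

theorem so3_7 : IB (cs 0 0 1 (7 : ℕ)) (avgP oi3_0_7.z0 oi3_1_7.z0) ∧
    IB (cs 0 3 1 (7 : ℕ)) (avgM oi3_0_7.z0 oi3_1_7.z0) ∧
    IB (cs 3 0 1 (7 : ℕ)) (avgP (oi3_0_7.z3 1) (oi3_1_7.z3 1)) ∧
    IB (cs 3 3 1 (7 : ℕ)) (avgM (oi3_0_7.z3 1) (oi3_1_7.z3 1)) :=
  OI.secs oi3_0_7_ok oi3_1_7_ok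

theorem so4_7 : IB (cs 0 0 2 (7 : ℕ)) (avgP oi4_0_7.z0 oi4_1_7.z0) ∧
    IB (cs 0 3 2 (7 : ℕ)) (avgM oi4_0_7.z0 oi4_1_7.z0) ∧
    IB (cs 3 0 2 (7 : ℕ)) (avgP (oi4_0_7.z3 2) (oi4_1_7.z3 2)) ∧
    IB (cs 3 3 2 (7 : ℕ)) (avgM (oi4_0_7.z3 2) (oi4_1_7.z3 2)) :=
  OI.secs oi4_0_7_ok oi4_1_7_ok

theorem so5_7 : IB (cs 0 0 3 (7 : ℕ)) (avgP oi5_0_7.z0 oi5_1_7.z0) ∧
    IB (cs 0 3 3 (7 : ℕ)) (avgM oi5_0_7.z0 oi5_1_7.z0) ∧
    IB (cs 3 0 3 (7 : ℕ)) (avgP (oi5_0_7.z3 3) (oi5_1_7.z3 3)) ∧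
    IB (cs 3 3 3 (7 : ℕ)) (avgM (oi5_0_7.z3 3) (oi5_1_7.z3 3)) :=
  OI.secs oi5_0_7_ok oi5_1_7_ok

theorem so6_7 : IB (cs 0 0 4 (7 : ℕ)) (avgP oi6_0_7.z0 oi6_1_7.z0) ∧
    IB (cs 0 3 4 (7 : ℕ)) (avgM oi6_0_7.z0 oi6_1_7.z0) ∧
    IB (cs 3 0 4 (7 : ℕ)) (avgP (oi6_0_7.z3 4) (oi6_1_7.z3 4)) ∧
    IB (cs 3 3 4 (7 : ℕ)) (avgM (oi6_0_7.z3 4) (oi6_1_7.z3 4)) :=
  OI.secs oi6_0_7_ok oi6_1_7_ok

theorem so7_7 : IB (cs 0 0 5 (7 : ℕ)) (avgP oi7_0_7.z0 oi7_1_7.z0) ∧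
    IB (cs 0 3 5 (7 : ℕ)) (avgM oi7_0_7.z0 oi7_1_7.z0) ∧
    IB (cs 3 0 5 (7 : ℕ)) (avgP (oi7_0_7.z3 5) (oi7_1_7.z3 5)) ∧
    IB (cs 3 3 5 (7 : ℕ)) (avgM (oi7_0_7.z3 5) (oi7_1_7.z3 5)) :=
  OI.secs oi7_0_7_ok oi7_1_7_ok

theorem so8_7 : IB (cs 0 0 6 (7 : ℕ)) (avgP oi8_0_7.z0 oi8_1_7.z0) ∧
    IB (cs 0 3 6 (7 : ℕ)) (avgM oi8_0_7.z0 oi8_1_7.z0) ∧
    IB (cs 3 0 6 (7 : ℕ)) (avgP (oi8_0_7.z3 6) (oi8_1_7.z3 6)) ∧
    IB (cs 3 3 6 (7 : ℕ)) (avgM (oi8_0_7.z3 6) (oi8_1_7.z3 6)) :=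
  OI.secs oi8_0_7_ok oi8_1_7_ok


def I00_7 : List (ℚ × ℚ) :=
  [((1491285800363 / 1000000000000 : ℚ), (1491285839361 / 1000000000000 : ℚ)), ((1191890693409 / 1000000000000 : ℚ), (238378670543 / 200000000000 :
  ℚ)), ((1173415052137 / 1000000000000 : ℚ), (1173421994257 / 1000000000000 : ℚ)), ((2236254221 / 2000000000 : ℚ), (223647506649 / 200000000000 : ℚ)),
  ((555505084409 / 500000000000 : ℚ), (222300778451 / 200000000000 : ℚ))]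

theorem hI00_7 : SecI (fun L => Zs 0 0 L (7 : ℕ)) 6 I00_7 :=
  SecI.cons (IB.wk sr6_7.1 _ (by decide +kernel)) (SecI.cons (IB.wk sr7_7.1 _ (by decide +kernel)) (SecI.cons (IB.wk sr8_7.1 _ (by decide +kernel))
  (SecI.cons (IB.wk sr9_7.1 _ (by decide +kernel)) (SecI.cons (IB.wk sr10_7.1 _ (by decide +kernel)) (SecI.nil _ _)))))

def fd00_7 : FD :=
  ⟨(157927427 / 1000000000 : ℚ), (-193768203 / 1000000000 : ℚ), (50405263 / 50000000 : ℚ), (11810541597 / 10000000000 : ℚ), (1957291637 / 10000000000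
  : ℚ), (149507357 / 250000000 : ℚ)⟩

theorem sb00_7 : SB 0 0 7 (50405263 / 50000000 : ℚ) (697947713 / 1000000000 : ℚ) :=
  sec_ring hI00_7 fd00_7 _ _ (by decide +kernel)

def I03_7 : List (ℚ × ℚ) :=
  [((193162827311 / 200000000000 : ℚ), (193162834449 / 200000000000 : ℚ)), ((-166690311693 / 500000000000 : ℚ), (-166689817959 / 500000000000 : ℚ)),
  ((223459041721 / 500000000000 : ℚ), (223462031113 / 500000000000 : ℚ)), ((-237890704683 / 1000000000000 : ℚ), (-59461439191 / 250000000000 : ℚ)),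
  ((254797518457 / 1000000000000 : ℚ), (63786004061 / 250000000000 : ℚ))]

theorem hI03_7 : SecI (fun L => Zs 0 3 L (7 : ℕ)) 6 I03_7 :=
  SecI.cons (IB.wk sr6_7.2.1 _ (by decide +kernel)) (SecI.cons (IB.wk sr7_7.2.1 _ (by decide +kernel)) (SecI.cons (IB.wk sr8_7.2.1 _
  (by decide +kernel)) (SecI.cons (IB.wk sr9_7.2.1 _ (by decide +kernel)) (SecI.cons (IB.wk sr10_7.2.1 _ (by decide +kernel)) (SecI.nil _ _)))))

def fd03_7 : FD :=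
  ⟨(-5348614671 / 10000000000 : ℚ), (-185930567 / 1000000000 : ℚ), (709628901 / 1000000000 : ℚ), (459123663 / 10000000000 : ℚ), (-139037859 /
  500000000 : ℚ), (34226869 / 40000000 : ℚ)⟩

theorem sb03_7 : SB 0 3 7 (34226869 / 40000000 : ℚ) (732927863 / 1000000000 : ℚ) :=
  sec_ring hI03_7 fd03_7 _ _ (by decide +kernel)

def I33_7 : List (ℚ × ℚ) :=
  [((712256934029 / 500000000000 : ℚ), (284902780761 / 200000000000 : ℚ)), ((139383287883 / 125000000000 : ℚ), (1115067291609 / 1000000000000 : ℚ)),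
  ((271670235361 / 250000000000 : ℚ), (1086686990843 / 1000000000000 : ℚ)), ((204495560939 / 200000000000 : ℚ), (511261831477 / 500000000000 : ℚ)),
  ((1006111688897 / 1000000000000 : ℚ), (100649051747 / 100000000000 : ℚ))]

theorem hI33_7 : SecI (fun L => Zs 3 3 L (7 : ℕ)) 6 I33_7 :=
  SecI.cons (IB.wk sr6_7.2.2.1 _ (by decide +kernel)) (SecI.cons (IB.wk sr7_7.2.2.1 _ (by decide +kernel)) (SecI.cons (IB.wk sr8_7.2.2.1 _
  (by decide +kernel)) (SecI.cons (IB.wk sr9_7.2.2.1 _ (by decide +kernel)) (SecI.cons (IB.wk sr10_7.2.2.1 _ (by decide +kernel)) (SecI.nil _ _)))))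

def fd33_7 : FD :=
  ⟨(36491687 / 250000000 : ℚ), (-950714763 / 5000000000 : ℚ), (998130973 / 1000000000 : ℚ), (5828666743 / 5000000000 : ℚ), (945270499 / 5000000000 :
  ℚ), (596887041 / 1000000000 : ℚ)⟩

theorem sb33_7 : SB 3 3 7 (998130973 / 1000000000 : ℚ) (27662811 / 40000000 : ℚ) :=
  sec_ring hI33_7 fd33_7 _ _ (by decide +kernel)

def I30_7 : List (ℚ × ℚ) :=
  [((976512850843 / 1000000000000 : ℚ), (976512887127 / 1000000000000 : ℚ)), ((-16683402087 / 50000000000 : ℚ), (-41708381749 / 125000000000 : ℚ)),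
  ((227337794659 / 500000000000 : ℚ), (454681768759 / 1000000000000 : ℚ)), ((-119293389237 / 500000000000 : ℚ), (-238541726589 / 1000000000000 : ℚ)),
  ((16249699947 / 62500000000 : ℚ), (52073758021 / 200000000000 : ℚ))]

theorem hI30_7 : SecI (fun L => Zs 3 0 L (7 : ℕ)) 6 I30_7 :=
  SecI.cons (IB.wk sr6_7.2.2.2.1 _ (by decide +kernel)) (SecI.cons (IB.wk sr7_7.2.2.2.1 _ (by decide +kernel)) (SecI.cons (IB.wk sr8_7.2.2.2.1 _
  (by decide +kernel)) (SecI.cons (IB.wk sr9_7.2.2.2.1 _ (by decide +kernel)) (SecI.cons (IB.wk sr10_7.2.2.2.1 _ (by decide +kernel)) (SecI.nil _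
  _)))))

def fd30_7 : FD :=
  ⟨(-21388763 / 40000000 : ℚ), (-74768949 / 400000000 : ℚ), (89293327 / 125000000 : ℚ), (277790757 / 5000000000 : ℚ), (-2815818697 / 10000000000 : ℚ),
  (428492417 / 500000000 : ℚ)⟩

theorem sb30_7 : SB 3 0 7 (428492417 / 500000000 : ℚ) (736098849 / 1000000000 : ℚ) :=
  sec_ring hI30_7 fd30_7 _ _ (by decide +kernel)

def I31_7 : List (ℚ × ℚ) :=
  [((187669343923 / 200000000000 : ℚ), (938346755307 / 1000000000000 : ℚ)), ((-37098469411 / 125000000000 : ℚ), (-1187147071 / 4000000000 : ℚ)),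
  ((82206168237 / 200000000000 : ℚ), (411036820699 / 1000000000000 : ℚ)), ((-7885152539 / 40000000000 : ℚ), (-98541924337 / 500000000000 : ℚ)),
  ((53935678991 / 250000000000 : ℚ), (8643606083 / 40000000000 : ℚ))]

theorem hI31_7 : SecI (fun L => Zs 3 1 L (7 : ℕ)) 6 I31_7 :=
  SecI.cons (IB.wk sr6_7.2.2.2.2 _ (by decide +kernel)) (SecI.cons (IB.wk sr7_7.2.2.2.2 _ (by decide +kernel)) (SecI.cons (IB.wk sr8_7.2.2.2.2 _
  (by decide +kernel)) (SecI.cons (IB.wk sr9_7.2.2.2.2 _ (by decide +kernel)) (SecI.cons (IB.wk sr10_7.2.2.2.2 _ (by decide +kernel)) (SecI.nil _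
  _)))))

def fd31_7 : FD :=
  ⟨(-4638993223 / 10000000000 : ℚ), (-2080114611 / 10000000000 : ℚ), (707846399 / 1000000000 : ℚ), (134007403 / 5000000000 : ℚ), (-2912355501 /
  10000000000 : ℚ), (167063583 / 200000000 : ℚ)⟩

theorem sb31_7 : SB 3 1 7 (167063583 / 200000000 : ℚ) (29686437 / 40000000 : ℚ) :=
  sec_ring hI31_7 fd31_7 _ _ (by decide +kernel)

def J00_7 : List (ℚ × ℚ) :=
  [((2696852457963 / 1000000000000 : ℚ), (269685245797 / 100000000000 : ℚ)), ((407458116207 / 250000000000 : ℚ), (162983246483 / 100000000000 : ℚ)),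
  ((303894712711 / 200000000000 : ℚ), (1519473563561 / 1000000000000 : ℚ)), ((39889043983 / 31250000000 : ℚ), (1276449413079 / 1000000000000 : ℚ)),
  ((1206544620843 / 1000000000000 : ℚ), (1206545164923 / 1000000000000 : ℚ)), ((566023905721 / 500000000000 : ℚ), (566031866039 / 500000000000 : ℚ)),
  ((1103412599321 / 1000000000000 : ℚ), (1103992160061 / 1000000000000 : ℚ))]

theorem hJ00_7 : SecI (fun k => cs 0 0 k (7 : ℕ)) 0 J00_7 :=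
  SecI.cons (IB.wk so2_7.1 _ (by decide +kernel)) (SecI.cons (IB.wk so3_7.1 _ (by decide +kernel)) (SecI.cons (IB.wk so4_7.1 _ (by decide +kernel))
  (SecI.cons (IB.wk so5_7.1 _ (by decide +kernel)) (SecI.cons (IB.wk so6_7.1 _ (by decide +kernel)) (SecI.cons (IB.wk so7_7.1 _ (by decide +kernel))
  (SecI.cons (IB.wk so8_7.1 _ (by decide +kernel)) (SecI.nil _ _)))))))

def J03_7 : List (ℚ × ℚ) :=
  [((263165219849 / 100000000000 : ℚ), (2631652198497 / 1000000000000 : ℚ)), ((-1579226065351 / 1000000000000 : ℚ), (-1579226065349 / 1000000000000 :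
  ℚ)), ((351466192871 / 250000000000 : ℚ), (140586477149 / 100000000000 : ℚ)), ((-274223831109 / 250000000000 : ℚ), (-1096895318813 / 1000000000000 :
  ℚ)), ((942719411187 / 1000000000000 : ℚ), (235679988817 / 250000000000 : ℚ)), ((-6077058321 / 7812500000 : ℚ), (-777847544453 / 1000000000000 : ℚ)),
  ((661703077217 / 1000000000000 : ℚ), (662282637957 / 1000000000000 : ℚ))]

theorem hJ03_7 : SecI (fun k => cs 0 3 k (7 : ℕ)) 0 J03_7 :=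
  SecI.cons (IB.wk so2_7.2.1 _ (by decide +kernel)) (SecI.cons (IB.wk so3_7.2.1 _ (by decide +kernel)) (SecI.cons (IB.wk so4_7.2.1 _
  (by decide +kernel)) (SecI.cons (IB.wk so5_7.2.1 _ (by decide +kernel)) (SecI.cons (IB.wk so6_7.2.1 _ (by decide +kernel)) (SecI.cons (IB.wk
  so7_7.2.1 _ (by decide +kernel)) (SecI.cons (IB.wk so8_7.2.1 _ (by decide +kernel)) (SecI.nil _ _)))))))

def J30_7 : List (ℚ × ℚ) :=
  [((2692758883743 / 1000000000000 : ℚ), (2692758883749 / 1000000000000 : ℚ)), ((-49526043259 / 31250000000 : ℚ), (-316966676857 / 200000000000 : ℚ)),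
  ((36122536761 / 25000000000 : ℚ), (28898029409 / 20000000000 : ℚ)), ((-276446814817 / 250000000000 : ℚ), (-552893626751 / 500000000000 : ℚ)),
  ((971019677223 / 1000000000000 : ℚ), (971020225159 / 1000000000000 : ℚ)), ((-788189336509 / 1000000000000 : ℚ), (-788173338819 / 1000000000000 :
  ℚ)), ((682109008309 / 1000000000000 : ℚ), (341347368821 / 500000000000 : ℚ))]

theorem hJ30_7 : SecI (fun k => cs 3 0 k (7 : ℕ)) 0 J30_7 :=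
  SecI.cons (IB.wk so2_7.2.2.1 _ (by decide +kernel)) (SecI.cons (IB.wk so3_7.2.2.1 _ (by decide +kernel)) (SecI.cons (IB.wk so4_7.2.2.1 _
  (by decide +kernel)) (SecI.cons (IB.wk so5_7.2.2.1 _ (by decide +kernel)) (SecI.cons (IB.wk so6_7.2.2.1 _ (by decide +kernel)) (SecI.cons (IB.wk
  so7_7.2.2.1 _ (by decide +kernel)) (SecI.cons (IB.wk so8_7.2.2.1 _ (by decide +kernel)) (SecI.nil _ _)))))))

def J33_7 : List (ℚ × ℚ) :=
  [((527005774357 / 200000000000 : ℚ), (2635028871791 / 1000000000000 : ℚ)), ((1608875204057 / 1000000000000 : ℚ), (1608875204059 / 1000000000000 :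
  ℚ)), ((1471479931929 / 1000000000000 : ℚ), (735739965969 / 500000000000 : ℚ)), ((1235929060387 / 1000000000000 : ℚ), (1235929066153 / 1000000000000
  : ℚ)), ((1151496758823 / 1000000000000 : ℚ), (1151497306759 / 1000000000000 : ℚ)), ((53673599403 / 50000000000 : ℚ), (1073487985751 / 1000000000000
  : ℚ)), ((1034228427029 / 1000000000000 : ℚ), (517407078181 / 500000000000 : ℚ))]

theorem hJ33_7 : SecI (fun k => cs 3 3 k (7 : ℕ)) 0 J33_7 :=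
  SecI.cons (IB.wk so2_7.2.2.2 _ (by decide +kernel)) (SecI.cons (IB.wk so3_7.2.2.2 _ (by decide +kernel)) (SecI.cons (IB.wk so4_7.2.2.2 _
  (by decide +kernel)) (SecI.cons (IB.wk so5_7.2.2.2 _ (by decide +kernel)) (SecI.cons (IB.wk so6_7.2.2.2 _ (by decide +kernel)) (SecI.cons (IB.wk
  so7_7.2.2.2 _ (by decide +kernel)) (SecI.cons (IB.wk so8_7.2.2.2 _ (by decide +kernel)) (SecI.nil _ _)))))))

theorem ob03_7 : OB 0 3 7 6 [((1687330987 / 1000000000 : ℚ), (34226869 / 40000000 : ℚ))] :=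
  sec_mag hI03_7 hJ03_7 fd03_7 _ _ (by decide +kernel)

theorem ob30_7 : OB 3 0 7 6 [((1723406543 / 1000000000 : ℚ), (428492417 / 500000000 : ℚ))] :=
  sec_mag hI30_7 hJ30_7 fd30_7 _ _ (by decide +kernel)

theorem sr6_9 : IB (Zs 0 0 6 (9 : ℕ)) ri6_9.z00 ∧ IB (Zs 0 3 6 (9 : ℕ)) ri6_9.z03 ∧
    IB (Zs 3 3 6 (9 : ℕ)) ri6_9.z33 ∧ IB (Zs 3 0 6 (9 : ℕ)) ri6_9.z30 ∧
    IB (Zs 3 1 6 (9 : ℕ)) ri6_9.z31 :=
  RI.secs ri6_9_ok (by decide)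

theorem sr7_9 : IB (Zs 0 0 7 (9 : ℕ)) ri7_9.z00 ∧ IB (Zs 0 3 7 (9 : ℕ)) ri7_9.z03 ∧
    IB (Zs 3 3 7 (9 : ℕ)) ri7_9.z33 ∧ IB (Zs 3 0 7 (9 : ℕ)) ri7_9.z30 ∧
    IB (Zs 3 1 7 (9 : ℕ)) ri7_9.z31 :=
  RI.secs ri7_9_ok (by decide)

theorem sr8_9 : IB (Zs 0 0 8 (9 : ℕ)) ri8_9.z00 ∧ IB (Zs 0 3 8 (9 : ℕ)) ri8_9.z03 ∧
    IB (Zs 3 3 8 (9 : ℕ)) ri8_9.z33 ∧ IB (Zs 3 0 8 (9 : ℕ)) ri8_9.z30 ∧
    IB (Zs 3 1 8 (9 : ℕ)) ri8_9.z31 :=
  RI.secs ri8_9_ok (by decide)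

theorem sr9_9 : IB (Zs 0 0 9 (9 : ℕ)) ri9_9.z00 ∧ IB (Zs 0 3 9 (9 : ℕ)) ri9_9.z03 ∧
    IB (Zs 3 3 9 (9 : ℕ)) ri9_9.z33 ∧ IB (Zs 3 0 9 (9 : ℕ)) ri9_9.z30 ∧
    IB (Zs 3 1 9 (9 : ℕ)) ri9_9.z31 :=
  RI.secs ri9_9_ok (by decide)

theorem sr10_9 : IB (Zs 0 0 10 (9 : ℕ)) ri10_9.z00 ∧ IB (Zs 0 3 10 (9 : ℕ)) ri10_9.z03 ∧
    IB (Zs 3 3 10 (9 : ℕ)) ri10_9.z33 ∧ IB (Zs 3 0 10 (9 : ℕ)) ri10_9.z30 ∧
    IB (Zs 3 1 10 (9 : ℕ)) ri10_9.z31 :=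
  RI.secs ri10_9_ok (by decide)

theorem so2_9 : IB (cs 0 0 0 (9 : ℕ)) (avgP oi2_0_9.z0 oi2_1_9.z0) ∧
    IB (cs 0 3 0 (9 : ℕ)) (avgM oi2_0_9.z0 oi2_1_9.z0) ∧
    IB (cs 3 0 0 (9 : ℕ)) (avgP (oi2_0_9.z3 0) (oi2_1_9.z3 0)) ∧
    IB (cs 3 3 0 (9 : ℕ)) (avgM (oi2_0_9.z3 0) (oi2_1_9.z3 0)) :=
  OI.secs oi2_0_9_ok oi2_1_9_ok

theorem so3_9 : IB (cs 0 0 1 (9 : ℕ)) (avgP oi3_0_9.z0 oi3_1_9.z0) ∧
    IB (cs 0 3 1 (9 : ℕ)) (avgM oi3_0_9.z0 oi3_1_9.z0) ∧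
    IB (cs 3 0 1 (9 : ℕ)) (avgP (oi3_0_9.z3 1) (oi3_1_9.z3 1)) ∧
    IB (cs 3 3 1 (9 : ℕ)) (avgM (oi3_0_9.z3 1) (oi3_1_9.z3 1)) :=
  OI.secs oi3_0_9_ok oi3_1_9_ok

theorem so4_9 : IB (cs 0 0 2 (9 : ℕ)) (avgP oi4_0_9.z0 oi4_1_9.z0) ∧
    IB (cs 0 3 2 (9 : ℕ)) (avgM oi4_0_9.z0 oi4_1_9.z0) ∧
    IB (cs 3 0 2 (9 : ℕ)) (avgP (oi4_0_9.z3 2) (oi4_1_9.z3 2)) ∧
    IB (cs 3 3 2 (9 : ℕ)) (avgM (oi4_0_9.z3 2) (oi4_1_9.z3 2)) :=
  OI.secs oi4_0_9_ok oi4_1_9_ok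

theorem so5_9 : IB (cs 0 0 3 (9 : ℕ)) (avgP oi5_0_9.z0 oi5_1_9.z0) ∧
    IB (cs 0 3 3 (9 : ℕ)) (avgM oi5_0_9.z0 oi5_1_9.z0) ∧
    IB (cs 3 0 3 (9 : ℕ)) (avgP (oi5_0_9.z3 3) (oi5_1_9.z3 3)) ∧
    IB (cs 3 3 3 (9 : ℕ)) (avgM (oi5_0_9.z3 3) (oi5_1_9.z3 3)) :=
  OI.secs oi5_0_9_ok oi5_1_9_ok

theorem so6_9 : IB (cs 0 0 4 (9 : ℕ)) (avgP oi6_0_9.z0 oi6_1_9.z0) ∧
    IB (cs 0 3 4 (9 : ℕ)) (avgM oi6_0_9.z0 oi6_1_9.z0) ∧
    IB (cs 3 0 4 (9 : ℕ)) (avgP (oi6_0_9.z3 4) (oi6_1_9.z3 4)) ∧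
    IB (cs 3 3 4 (9 : ℕ)) (avgM (oi6_0_9.z3 4) (oi6_1_9.z3 4)) :=
  OI.secs oi6_0_9_ok oi6_1_9_ok

theorem so7_9 : IB (cs 0 0 5 (9 : ℕ)) (avgP oi7_0_9.z0 oi7_1_9.z0) ∧
    IB (cs 0 3 5 (9 : ℕ)) (avgM oi7_0_9.z0 oi7_1_9.z0) ∧
    IB (cs 3 0 5 (9 : ℕ)) (avgP (oi7_0_9.z3 5) (oi7_1_9.z3 5)) ∧
    IB (cs 3 3 5 (9 : ℕ)) (avgM (oi7_0_9.z3 5) (oi7_1_9.z3 5)) :=
  OI.secs oi7_0_9_ok oi7_1_9_ok

theorem so8_9 : IB (cs 0 0 6 (9 : ℕ)) (avgP oi8_0_9.z0 oi8_1_9.z0) ∧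
    IB (cs 0 3 6 (9 : ℕ)) (avgM oi8_0_9.z0 oi8_1_9.z0) ∧
    IB (cs 3 0 6 (9 : ℕ)) (avgP (oi8_0_9.z3 6) (oi8_1_9.z3 6)) ∧
    IB (cs 3 3 6 (9 : ℕ)) (avgM (oi8_0_9.z3 6) (oi8_1_9.z3 6)) :=
  OI.secs oi8_0_9_ok oi8_1_9_ok


def I00_9 : List (ℚ × ℚ) :=
  [((974640458429 / 500000000000 : ℚ), (1949280965979 / 1000000000000 : ℚ)), ((315048851287 / 250000000000 : ℚ), (1260198949081 / 1000000000000 : ℚ)),
  ((312762147061 / 250000000000 : ℚ), (1251057635509 / 1000000000000 : ℚ)), ((1117162460931 / 1000000000000 : ℚ), (1117278489069 / 1000000000000 :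
  ℚ)), ((550208443923 / 500000000000 : ℚ), (550571639231 / 500000000000 : ℚ))]

theorem hI00_9 : SecI (fun L => Zs 0 0 L (9 : ℕ)) 6 I00_9 :=
  SecI.cons (IB.wk sr6_9.1 _ (by decide +kernel)) (SecI.cons (IB.wk sr7_9.1 _ (by decide +kernel)) (SecI.cons (IB.wk sr8_9.1 _ (by decide +kernel))
  (SecI.cons (IB.wk sr9_9.1 _ (by decide +kernel)) (SecI.cons (IB.wk sr10_9.1 _ (by decide +kernel)) (SecI.nil _ _)))))

def fd00_9 : FD :=
  ⟨(1317754061 / 10000000000 : ℚ), (-79000527 / 400000000 : ℚ), (251219383 / 250000000 : ℚ), (10361239119 / 10000000000 : ℚ), (420592599 / 5000000000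
  : ℚ), (26743287 / 40000000 : ℚ)⟩

theorem sb00_9 : SB 0 0 9 (251219383 / 250000000 : ℚ) (743015099 / 1000000000 : ℚ) :=
  sec_ring hI00_9 fd00_9 _ _ (by decide +kernel)

def I03_9 : List (ℚ × ℚ) :=
  [((307631121621 / 200000000000 : ℚ), (1538155654483 / 1000000000000 : ℚ)), ((-380870898449 / 1000000000000 : ℚ), (-15234785987 / 40000000000 : ℚ)),
  ((156425785981 / 250000000000 : ℚ), (156427747919 / 250000000000 : ℚ)), ((-27136618731 / 100000000000 : ℚ), (-135660641879 / 500000000000 : ℚ)),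
  ((331997113487 / 1000000000000 : ℚ), (83128941051 / 250000000000 : ℚ))]

theorem hI03_9 : SecI (fun L => Zs 0 3 L (9 : ℕ)) 6 I03_9 :=
  SecI.cons (IB.wk sr6_9.2.1 _ (by decide +kernel)) (SecI.cons (IB.wk sr7_9.2.1 _ (by decide +kernel)) (SecI.cons (IB.wk sr8_9.2.1 _
  (by decide +kernel)) (SecI.cons (IB.wk sr9_9.2.1 _ (by decide +kernel)) (SecI.cons (IB.wk sr10_9.2.1 _ (by decide +kernel)) (SecI.nil _ _)))))

def fd03_9 : FD :=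
  ⟨(-1192295901 / 2500000000 : ℚ), (-124945301 / 625000000 : ℚ), (755910497 / 1000000000 : ℚ), (40971061 / 625000000 : ℚ), (-2654757157 / 10000000000
  : ℚ), (6974747 / 8000000 : ℚ)⟩

theorem sb03_9 : SB 0 3 9 (6974747 / 8000000 : ℚ) (387802519 / 500000000 : ℚ) :=
  sec_ring hI03_9 fd03_9 _ _ (by decide +kernel)

def I33_9 : List (ℚ × ℚ) :=
  [((962061994467 / 500000000000 : ℚ), (1924124035491 / 1000000000000 : ℚ)), ((615299772657 / 500000000000 : ℚ), (246120159587 / 200000000000 : ℚ)),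
  ((1217052953099 / 1000000000000 : ℚ), (76066315649 / 62500000000 : ℚ)), ((269901115183 / 250000000000 : ℚ), (1079652513099 / 1000000000000 : ℚ)),
  ((1059135566851 / 1000000000000 : ℚ), (1059752442473 / 1000000000000 : ℚ))]

theorem hI33_9 : SecI (fun L => Zs 3 3 L (9 : ℕ)) 6 I33_9 :=
  SecI.cons (IB.wk sr6_9.2.2.1 _ (by decide +kernel)) (SecI.cons (IB.wk sr7_9.2.2.1 _ (by decide +kernel)) (SecI.cons (IB.wk sr8_9.2.2.1 _
  (by decide +kernel)) (SecI.cons (IB.wk sr9_9.2.2.1 _ (by decide +kernel)) (SecI.cons (IB.wk sr10_9.2.2.1 _ (by decide +kernel)) (SecI.nil _ _)))))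

def fd33_9 : FD :=
  ⟨(1296475517 / 10000000000 : ℚ), (-245706143 / 1250000000 : ℚ), (1000927859 / 1000000000 : ℚ), (2573415271 / 2500000000 : ℚ), (32810287 / 400000000
  : ℚ), (668102609 / 1000000000 : ℚ)⟩

theorem sb33_9 : SB 3 3 9 (1000927859 / 1000000000 : ℚ) (185444187 / 250000000 : ℚ) :=
  sec_ring hI33_9 fd33_9 _ _ (by decide +kernel)

def I30_9 : List (ℚ × ℚ) :=
  [((1543337042039 / 1000000000000 : ℚ), (385834272463 / 250000000000 : ℚ)), ((-190453827909 / 500000000000 : ℚ), (-380906406889 / 1000000000000 :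
  ℚ)), ((62968814969 / 100000000000 : ℚ), (629696514391 / 1000000000000 : ℚ)), ((-54300320763 / 200000000000 : ℚ), (-271456628199 / 1000000000000 :
  ℚ)), ((66918939297 / 200000000000 : ℚ), (167580860433 / 500000000000 : ℚ))]

theorem hI30_9 : SecI (fun L => Zs 3 0 L (9 : ℕ)) 6 I30_9 :=
  SecI.cons (IB.wk sr6_9.2.2.2.1 _ (by decide +kernel)) (SecI.cons (IB.wk sr7_9.2.2.2.1 _ (by decide +kernel)) (SecI.cons (IB.wk sr8_9.2.2.2.1 _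
  (by decide +kernel)) (SecI.cons (IB.wk sr9_9.2.2.2.1 _ (by decide +kernel)) (SecI.cons (IB.wk sr10_9.2.2.2.1 _ (by decide +kernel)) (SecI.nil _
  _)))))

def fd30_9 : FD :=
  ⟨(-2382092289 / 5000000000 : ℚ), (-1003155939 / 5000000000 : ℚ), (757425687 / 1000000000 : ℚ), (684001359 / 10000000000 : ℚ), (-533373953 /
  2000000000 : ℚ), (872356469 / 1000000000 : ℚ)⟩

theorem sb30_9 : SB 3 0 9 (872356469 / 1000000000 : ℚ) (388364319 / 500000000 : ℚ) :=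
  sec_ring hI30_9 fd30_9 _ _ (by decide +kernel)

def I31_9 : List (ℚ × ℚ) :=
  [((305642539067 / 200000000000 : ℚ), (764106370857 / 500000000000 : ℚ)), ((-183134533191 / 500000000000 : ℚ), (-45783477201 / 125000000000 : ℚ)),
  ((611177399439 / 1000000000000 : ℚ), (305592623597 / 500000000000 : ℚ)), ((-126852859163 / 500000000000 : ℚ), (-50732162929 / 200000000000 : ℚ)),
  ((6292709327 / 20000000000 : ℚ), (31515413787 / 100000000000 : ℚ))]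

theorem hI31_9 : SecI (fun L => Zs 3 1 L (9 : ℕ)) 6 I31_9 :=
  SecI.cons (IB.wk sr6_9.2.2.2.2 _ (by decide +kernel)) (SecI.cons (IB.wk sr7_9.2.2.2.2 _ (by decide +kernel)) (SecI.cons (IB.wk sr8_9.2.2.2.2 _
  (by decide +kernel)) (SecI.cons (IB.wk sr9_9.2.2.2.2 _ (by decide +kernel)) (SecI.cons (IB.wk sr10_9.2.2.2.2 _ (by decide +kernel)) (SecI.nil _
  _)))))

def fd31_9 : FD :=
  ⟨(-1132256493 / 2500000000 : ℚ), (-411870271 / 2000000000 : ℚ), (377432673 / 500000000 : ℚ), (600785269 / 10000000000 : ℚ), (-1345807879 /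
  5000000000 : ℚ), (86473979 / 100000000 : ℚ)⟩

theorem sb31_9 : SB 3 1 9 (86473979 / 100000000 : ℚ) (778099459 / 1000000000 : ℚ) :=
  sec_ring hI31_9 fd31_9 _ _ (by decide +kernel)

def J00_9 : List (ℚ × ℚ) :=
  [((2155484393629 / 500000000000 : ℚ), (172438751491 / 40000000000 : ℚ)), ((1120898285717 / 500000000000 : ℚ), (2241796571439 / 1000000000000 : ℚ)),
  ((62787880649 / 31250000000 : ℚ), (2009212180769 / 1000000000000 : ℚ)), ((1557307511249 / 1000000000000 : ℚ), (1557307513039 / 1000000000000 : ℚ)),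
  ((140810611439 / 100000000000 : ℚ), (1408106956081 / 1000000000000 : ℚ)), ((156821201607 / 125000000000 : ℚ), (125459198191 / 100000000000 : ℚ)),
  ((295819505001 / 250000000000 : ℚ), (1184064472553 / 1000000000000 : ℚ))]

theorem hJ00_9 : SecI (fun k => cs 0 0 k (9 : ℕ)) 0 J00_9 :=
  SecI.cons (IB.wk so2_9.1 _ (by decide +kernel)) (SecI.cons (IB.wk so3_9.1 _ (by decide +kernel)) (SecI.cons (IB.wk so4_9.1 _ (by decide +kernel))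
  (SecI.cons (IB.wk so5_9.1 _ (by decide +kernel)) (SecI.cons (IB.wk so6_9.1 _ (by decide +kernel)) (SecI.cons (IB.wk so7_9.1 _ (by decide +kernel))
  (SecI.cons (IB.wk so8_9.1 _ (by decide +kernel)) (SecI.nil _ _)))))))

def J03_9 : List (ℚ × ℚ) :=
  [((2141269561377 / 500000000000 : ℚ), (428253912277 / 100000000000 : ℚ)), ((-2224039746549 / 1000000000000 : ℚ), (-139002484159 / 62500000000 : ℚ)),
  ((979487917001 / 500000000000 : ℚ), (1958975834003 / 1000000000000 : ℚ)), ((-364857399791 / 250000000000 : ℚ), (-729714798687 / 500000000000 : ℚ)),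
  ((623950648649 / 500000000000 : ℚ), (124790213899 / 100000000000 : ℚ)), ((-31665021659 / 31250000000 : ℚ), (-506629162017 / 500000000000 : ℚ)),
  ((862601303319 / 1000000000000 : ℚ), (863387755869 / 1000000000000 : ℚ))]

theorem hJ03_9 : SecI (fun k => cs 0 3 k (9 : ℕ)) 0 J03_9 :=
  SecI.cons (IB.wk so2_9.2.1 _ (by decide +kernel)) (SecI.cons (IB.wk so3_9.2.1 _ (by decide +kernel)) (SecI.cons (IB.wk so4_9.2.1 _
  (by decide +kernel)) (SecI.cons (IB.wk so5_9.2.1 _ (by decide +kernel)) (SecI.cons (IB.wk so6_9.2.1 _ (by decide +kernel)) (SecI.cons (IB.wk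
  so7_9.2.1 _ (by decide +kernel)) (SecI.cons (IB.wk so8_9.2.1 _ (by decide +kernel)) (SecI.nil _ _)))))))

def J30_9 : List (ℚ × ℚ) :=
  [((862036448511 / 200000000000 : ℚ), (1077545560643 / 250000000000 : ℚ)), ((-89012225023 / 40000000000 : ℚ), (-222530562557 / 100000000000 : ℚ)),
  ((246955007037 / 125000000000 : ℚ), (987820028149 / 500000000000 : ℚ)), ((-730873234903 / 500000000000 : ℚ), (-91359154251 / 62500000000 : ℚ)),
  ((25209835657 / 20000000000 : ℚ), (630246312283 / 500000000000 : ℚ)), ((-203260383659 / 200000000000 : ℚ), (-101627954809 / 100000000000 : ℚ)),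
  ((872059777183 / 1000000000000 : ℚ), (436423258659 / 500000000000 : ℚ))]

theorem hJ30_9 : SecI (fun k => cs 3 0 k (9 : ℕ)) 0 J30_9 :=
  SecI.cons (IB.wk so2_9.2.2.1 _ (by decide +kernel)) (SecI.cons (IB.wk so3_9.2.2.1 _ (by decide +kernel)) (SecI.cons (IB.wk so4_9.2.2.1 _
  (by decide +kernel)) (SecI.cons (IB.wk so5_9.2.2.1 _ (by decide +kernel)) (SecI.cons (IB.wk so6_9.2.2.1 _ (by decide +kernel)) (SecI.cons (IB.wk
  so7_9.2.2.1 _ (by decide +kernel)) (SecI.cons (IB.wk so8_9.2.2.1 _ (by decide +kernel)) (SecI.nil _ _)))))))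

def J33_9 : List (ℚ × ℚ) :=
  [((2141632356763 / 500000000000 : ℚ), (4283264713543 / 1000000000000 : ℚ)), ((2236722875339 / 1000000000000 : ℚ), (2236722875343 / 1000000000000 :
  ℚ)), ((398196443151 / 200000000000 : ℚ), (497745553939 / 250000000000 : ℚ)), ((386392309551 / 250000000000 : ℚ), (772784619997 / 500000000000 : ℚ)),
  ((277830257721 / 200000000000 : ℚ), (1389152130321 / 1000000000000 : ℚ)), ((618105698067 / 500000000000 : ℚ), (1236233766339 / 1000000000000 : ℚ)),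
  ((145011032333 / 125000000000 : ℚ), (1160874998799 / 1000000000000 : ℚ))]

theorem hJ33_9 : SecI (fun k => cs 3 3 k (9 : ℕ)) 0 J33_9 :=
  SecI.cons (IB.wk so2_9.2.2.2 _ (by decide +kernel)) (SecI.cons (IB.wk so3_9.2.2.2 _ (by decide +kernel)) (SecI.cons (IB.wk so4_9.2.2.2 _
  (by decide +kernel)) (SecI.cons (IB.wk so5_9.2.2.2 _ (by decide +kernel)) (SecI.cons (IB.wk so6_9.2.2.2 _ (by decide +kernel)) (SecI.cons (IB.wk
  so7_9.2.2.2 _ (by decide +kernel)) (SecI.cons (IB.wk so8_9.2.2.2 _ (by decide +kernel)) (SecI.nil _ _)))))))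

theorem ob03_9 : OB 0 3 9 6 [((1965961709 / 1000000000 : ℚ), (6974747 / 8000000 : ℚ))] :=
  sec_mag hI03_9 hJ03_9 fd03_9 _ _ (by decide +kernel)

theorem ob30_9 : OB 3 0 9 6 [((247561999 / 125000000 : ℚ), (872356469 / 1000000000 : ℚ))] :=
  sec_mag hI30_9 hJ30_9 fd30_9 _ _ (by decide +kernel)

theorem ob00_7_4 : OB 0 0 7 20 [((122931291 / 125000000 : ℚ), (50405263 / 50000000 : ℚ)), ((4311023831 / 500000000 : ℚ), (709947 / 1000000 : ℚ))] :=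
  sec_top hI00_7 hJ00_7 fd00_7
    ⟨(-439268317 / 1000000000 : ℚ), (-297939 / 250000000 : ℚ), (155300811 / 250000000 : ℚ), (709947 / 1000000 : ℚ),
      1, 1, 8, (122931291 / 125000000 : ℚ), (4311023831 / 500000000 : ℚ), 20⟩ (by decide +kernel)

theorem ob33_7_4 : OB 3 3 7 22 [((978383567 / 1000000000 : ℚ), (998130973 / 1000000000 : ℚ)), ((52139723 / 6250000 : ℚ), (353101 / 500000 : ℚ))] :=
  sec_top hI33_7 hJ33_7 fd33_7
    ⟨(-81442347 / 200000000 : ℚ), (569937 / 40000000 : ℚ), (494341 / 800000 : ℚ), (353101 / 500000 : ℚ),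
      1, 2, 8, (978383567 / 1000000000 : ℚ), (52139723 / 6250000 : ℚ), 22⟩ (by decide +kernel)

theorem ob00_9_4 : OB 0 0 9 22 [((998320959 / 1000000000 : ℚ), (251219383 / 250000000 : ℚ)), ((7719717161 / 1000000000 : ℚ), (731637 / 1000000 : ℚ))] :=
  sec_top hI00_9 hJ00_9 fd00_9
    ⟨(-434080971 / 1000000000 : ℚ), (7124587 / 200000000 : ℚ), (320090871 / 500000000 : ℚ), (731637 / 1000000 : ℚ),
      1, 2, 8, (998320959 / 1000000000 : ℚ), (7719717161 / 1000000000 : ℚ), 22⟩ (by decide +kernel)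

theorem ob33_9_4 : OB 3 3 9 22 [((500754033 / 500000000 : ℚ), (1000927859 / 1000000000 : ℚ)), ((7579400279 / 1000000000 : ℚ), (365731 / 500000 : ℚ))] :=
  sec_top hI33_9 hJ33_9 fd33_9
    ⟨(-417431911 / 1000000000 : ℚ), (25412291 / 500000000 : ℚ), (20000891 / 31250000 : ℚ), (365731 / 500000 : ℚ),
      1, 2, 8, (500754033 / 500000000 : ℚ), (7579400279 / 1000000000 : ℚ), 22⟩ (by decide +kernel)

theorem ob00_9_5 : OB 0 0 9 26 [((998320959 / 1000000000 : ℚ), (251219383 / 250000000 : ℚ)), ((9141284203 / 1000000000 : ℚ), (355657 / 500000 : ℚ))] :=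
  sec_top hI00_9 hJ00_9 fd00_9
    ⟨(-434080971 / 1000000000 : ℚ), (7124587 / 200000000 : ℚ), (320090871 / 500000000 : ℚ), (355657 / 500000 : ℚ),
      1, 2, 10, (998320959 / 1000000000 : ℚ), (9141284203 / 1000000000 : ℚ), 26⟩ (by decide +kernel)

theorem ob33_9_5 : OB 3 3 9 26 [((500754033 / 500000000 : ℚ), (1000927859 / 1000000000 : ℚ)), ((8975193513 / 1000000000 : ℚ), (711143 / 1000000 : ℚ))] :=
  sec_top hI33_9 hJ33_9 fd33_9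
    ⟨(-417431911 / 1000000000 : ℚ), (25412291 / 500000000 : ℚ), (20000891 / 31250000 : ℚ), (711143 / 1000000 : ℚ),
      1, 2, 10, (500754033 / 500000000 : ℚ), (8975193513 / 1000000000 : ℚ), 26⟩ (by decide +kernel)

theorem IOp_congr {D : Data} {β k : ℕ} {a b a' b' : List (ℚ × ℚ)} (h : D.IOp β k a b) (hc : a = a' ∧ b = b') :
    D.IOp β k a' b' := hc.1 ▸ hc.2 ▸ h

theorem init {D : Data} (hD : Good D) : Init D where
  r7 := mkIR hD sb00_7 sb03_7 sb33_7 sb30_7 sb31_7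
  r9 := mkIR hD sb00_9 sb03_9 sb33_9 sb30_9 sb31_9
  o7_4 := IOp_congr (mkIO hD ob00_7_4 ob03_7 ob33_7_4 ob30_7 22 (by decide)) (by decide +kernel)
  o9_4 := IOp_congr (mkIO hD ob00_9_4 ob03_9 ob33_9_4 ob30_9 22 (by decide)) (by decide +kernel)
  o9_5 := IOp_congr (mkIO hD ob00_9_5 ob03_9 ob33_9_5 ob30_9 26 (by decide)) (by decide +kernel)

open Crest.MathPhysics.SpinChain in
theorem main :
    ((∀ L : ℕ, Even L → 60 ≤ L →
      HasSimpleGroundStateWithGap (heisenbergRing L) (4 / 105 * Real.log (80 / 79))) ∧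
    (∀ L : ℕ, Even L → 2304 ≤ L →
      HasSimpleGroundStateWithGap (heisenbergRing L) (Real.log 20 / 784))) ∧
    ∀ L : ℕ, 960 ≤ L →
      HasSimpleGroundStateWithGap (openChainEndField (2 * L) (3 / 5)) (Real.log 10 / 392) := by
  obtain ⟨D, hD⟩ := good_exists
  have I := init hD
  exact conclude hD (L0 := 448) (β := 192) (z := (371 / 50000 : ℚ))
    (Data.final (state I) (by decide) (by decide) (by decide) (by decide +kernel) (by decide +kernel))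
    (low I) (by decide +kernel)

end Crest.Agent.R347.C
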