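import Crest.Agent.R347.C.StR10_2
import Crest.Agent.R347.C.KR10_1_7

/-! R347: exact moments, one chunk of columns (generated); the second import only limits parallel memory -/

set_option autoImplicit false
set_option maxRecDepth 100000
set_option Elab.async false

namespace Crest.Agent.R347.C

def colsR10_2_0 : List (ℕ × ℕ) :=
  [(80,10), (134,20), (152,20), (158,20), (160,10), (188,20), (206,20), (212,10), (224,10), (296,20), (314,20), (320,20), (322,20), (350,20),
  (368,20), (374,20), (376,20), (386,20), (392,20), (394,20), (398,20), (400,10), (422,20), (428,20), (430,20), (440,20), (446,20), (448,10),
  (452,20), (464,20), (470,20), (512,20), (530,20), (536,20), (548,20), (554,20), (560,10), (584,20), (590,20), (602,20), (608,10), (656,10),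
  (782,20), (800,20), (806,20), (808,20), (836,20), (854,20), (860,20), (862,20), (872,20), (878,20), (880,20), (884,20), (886,20), (908,20),
  (914,20), (916,20), (926,20), (932,20), (934,20), (938,20), (940,20), (950,20), (952,20), (956,20), (958,20), (964,10), (998,20), (1016,20),
  (1022,20), (1024,20), (1034,20), (1040,20), (1042,20), (1046,20), (1048,20), (1070,20), (1076,20), (1078,20), (1088,20), (1094,20), (1096,20),
  (1100,20), (1102,20), (1112,20), (1114,20), (1118,20), (1120,10), (1142,20), (1148,20), (1150,20), (1154,20)]

def outR10_2_0 : List (List ℕ) :=
  [[1750, 0], [19940, 0], [245280, 0], [3197940, 0], [43684200, 0], [620120180, 0], [9092130420, 0], [137031005740, 0], [2114803492640, 0],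
  [33316171937280, 0], [534367529596140, 56237040], [8707061234493000, 6439058320], [143860448045671600, 420256944740], [2406354062865772980,
  20558752918800], [40694321242219270900, 838685745991000], [694950312335752730680, 30156868862221800], [11972299115682457276600, 987998078122127980],
  [207884234804420166797660, 30137025474131584160], [3635394334581136784276420, 868792003778764024360], [63984602863579834883403260,
  23927303748865442550040], [1132759203723931402757687880, 634651570769317527096820], [20161050760781291818566696800, 16312583768655984687704360],
  [360582153225775090434186131280, 408277172605736905021505480], [6477926004698526375730757857140, 9988605205506890962236867600],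
  [116856705695458911235850301493500, 239620994615922004384660827460]]

theorem runR10_2_0 : beqLL (runR2 9 stR10_2 109 25 colsR10_2_0) outR10_2_0 = true := by
  kernel_rfl


end Crest.Agent.R347.C
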