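import Crest.Agent.R347.C.StR9
import Crest.Agent.R347.C.KO8_1_9_9_1

/-! R347: exact moments, one chunk of columns (generated); the second import only limits parallel memory -/

set_option autoImplicit false
set_option maxRecDepth 100000
set_option Elab.async false

namespace Crest.Agent.R347.C

def colsR9_3t_0 : List (ℕ × ℕ) :=
  [(0,1), (1,9), (2,9), (4,9), (5,18), (8,9), (10,9), (11,18), (13,9), (14,18), (16,9), (17,18), (20,9), (23,9), (26,9), (28,9), (29,18), (31,18),
  (32,18), (34,18), (35,18), (38,18), (40,9), (41,18), (43,18), (44,18), (47,18), (50,18), (52,9), (56,9), (59,18), (62,18), (68,9), (82,9), (83,18),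
  (85,18), (86,18), (88,18), (89,18), (91,9), (92,18), (94,18), (95,18), (97,18), (98,18), (100,9), (101,18), (103,18), (104,18), (106,18), (110,18),
  (112,9), (113,18), (115,18), (116,18), (119,18), (121,9), (122,18), (124,18), (128,18), (130,9), (137,18), (140,18), (142,9), (146,18), (164,9),
  (167,18), (170,18), (173,9), (176,18), (182,9), (194,9), (247,9), (248,18), (251,9), (253,18), (254,18), (256,18), (257,18), (259,18), (260,18),
  (262,18), (263,18), (265,18), (266,18), (268,18), (272,18), (274,18), (275,18), (277,18), (278,18), (280,9), (281,18), (283,18), (284,18), (286,18),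
  (289,18), (290,18), (292,18), (299,18), (301,18), (302,18), (304,18), (308,18), (310,18), (316,9), (326,9), (328,9), (329,18), (331,18), (332,18),
  (335,18), (337,18), (338,18), (340,18), (344,18), (346,18), (353,18), (356,18), (358,18), (362,18), (364,9), (380,18), (407,18), (410,18), (412,9),
  (416,18), (434,18), (494,9), (497,18), (500,18), (506,18), (518,18), (524,9), (572,9), (757,3), (758,9), (760,18), (761,18), (763,18), (764,18),
  (767,18), (769,9), (770,18), (772,18), (776,18), (785,9), (788,18), (814,9), (815,18), (818,9), (820,9), (821,18), (823,18), (824,18), (826,18),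
  (829,18), (830,18), (832,18), (839,18), (841,18), (842,18), (844,18), (847,9), (848,18), (850,18), (856,18), (866,18), (868,18), (874,9), (895,18),
  (896,18), (898,18), (902,18), (904,18), (910,9), (920,18), (922,18), (985,9), (986,18), (988,9), (992,9), (1003,9), (1004,18), (1006,18), (1010,18),
  (1012,18), (1028,18), (1030,9), (1058,18), (1064,18), (1066,9), (1082,9), (1514,3), (1550,9), (2461,9), (2462,18), (2468,18), (2470,9), (2522,9),
  (2524,18), (3028,3)]

def outR9_3t_0 : List (List ℕ) :=
  [[3061, 0], [31014, 0], [345798, 0], [4130352, 0], [52043418, 0], [684645714, 0], [9333219528, 0], [131095665810, 0], [1888837217874, 0],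
  [27815702382882, 27011898], [417445019494758, 2506779180], [6368905686292110, 134303853618], [98582558552114796, 5451897703536]]

theorem runR9_3t_0 : beqLL (runR2 8 stR9_3t 55 13 colsR9_3t_0) outR9_3t_0 = true := by
  kernel_rfl


end Crest.Agent.R347.C
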