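import Crest.Agent.R347.Gen

/-! R347: written-out matrix-vector products (generated) -/

set_option autoImplicit false
set_option maxRecDepth 100000
set_option Elab.async false

namespace Crest.Agent.R347.C

noncomputable def stO8_0_6_6 : V 8 → V 8 := by gen_open 7 0 6 6

theorem stO8_0_6_6_eq (t : V 8) : stO8_0_6_6 t = stepO 7 false 6 6 t := by
  kernel_rfl

noncomputable def stO8_0_7_7 : V 8 → V 8 := by gen_open 7 0 7 7

theorem stO8_0_7_7_eq (t : V 8) : stO8_0_7_7 t = stepO 7 false 7 7 t := by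
  kernel_rfl

noncomputable def stO8_0_8_8 : V 8 → V 8 := by gen_open 7 0 8 8

theorem stO8_0_8_8_eq (t : V 8) : stO8_0_8_8 t = stepO 7 false 8 8 t := by
  kernel_rfl

noncomputable def stO8_0_0_5 : V 8 → V 8 := by gen_open 7 0 0 5

theorem stO8_0_0_5_eq (t : V 8) : stO8_0_0_5 t = stepO 7 false 0 5 t := by
  kernel_rfl

noncomputable def stO8_1_6_6 : V 8 → V 8 := by gen_open 7 1 6 6

theorem stO8_1_6_6_eq (t : V 8) : stO8_1_6_6 t = stepO 7 true 6 6 t := by
  kernel_rfl

noncomputable def stO8_1_7_7 : V 8 → V 8 := by gen_open 7 1 7 7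

theorem stO8_1_7_7_eq (t : V 8) : stO8_1_7_7 t = stepO 7 true 7 7 t := by
  kernel_rfl

noncomputable def stO8_1_8_8 : V 8 → V 8 := by gen_open 7 1 8 8

theorem stO8_1_8_8_eq (t : V 8) : stO8_1_8_8 t = stepO 7 true 8 8 t := by
  kernel_rfl

noncomputable def stO8_1_9_9 : V 8 → V 8 := by gen_open 7 1 9 9

theorem stO8_1_9_9_eq (t : V 8) : stO8_1_9_9 t = stepO 7 true 9 9 t := by
  kernel_rfl

noncomputable def stO8_1_10_10 : V 8 → V 8 := by gen_open 7 1 10 10

theorem stO8_1_10_10_eq (t : V 8) : stO8_1_10_10 t = stepO 7 true 10 10 t := by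
  kernel_rfl

noncomputable def stO8_1_0_5 : V 8 → V 8 := by gen_open 7 1 0 5

theorem stO8_1_0_5_eq (t : V 8) : stO8_1_0_5 t = stepO 7 true 0 5 t := by
  kernel_rfl

noncomputable def stO8_1_11_16 : V 8 → V 8 := by gen_open 7 1 11 16

theorem stO8_1_11_16_eq (t : V 8) : stO8_1_11_16 t = stepO 7 true 11 16 t := by
  kernel_rfl


end Crest.Agent.R347.C
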