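import Crest.Agent.R347.Gen

/-! R347: written-out matrix-vector products (generated) -/

set_option autoImplicit false
set_option maxRecDepth 100000
set_option Elab.async false

namespace Crest.Agent.R347.C

noncomputable def stO2_0_0_0 : V 2 → V 2 := by gen_open 1 0 0 0

theorem stO2_0_0_0_eq (t : V 2) : stO2_0_0_0 t = stepO 1 false 0 0 t := by
  kernel_rfl

noncomputable def stO2_0_1_1 : V 2 → V 2 := by gen_open 1 0 1 1

theorem stO2_0_1_1_eq (t : V 2) : stO2_0_1_1 t = stepO 1 false 1 1 t := by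
  kernel_rfl

noncomputable def stO2_0_2_2 : V 2 → V 2 := by gen_open 1 0 2 2

theorem stO2_0_2_2_eq (t : V 2) : stO2_0_2_2 t = stepO 1 false 2 2 t := by
  kernel_rfl

noncomputable def stO2_1_0_0 : V 2 → V 2 := by gen_open 1 1 0 0

theorem stO2_1_0_0_eq (t : V 2) : stO2_1_0_0 t = stepO 1 true 0 0 t := by
  kernel_rfl

noncomputable def stO2_1_1_1 : V 2 → V 2 := by gen_open 1 1 1 1

theorem stO2_1_1_1_eq (t : V 2) : stO2_1_1_1 t = stepO 1 true 1 1 t := by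
  kernel_rfl

noncomputable def stO2_1_2_2 : V 2 → V 2 := by gen_open 1 1 2 2

theorem stO2_1_2_2_eq (t : V 2) : stO2_1_2_2 t = stepO 1 true 2 2 t := by
  kernel_rfl

noncomputable def stO2_1_3_3 : V 2 → V 2 := by gen_open 1 1 3 3

theorem stO2_1_3_3_eq (t : V 2) : stO2_1_3_3 t = stepO 1 true 3 3 t := by
  kernel_rfl

noncomputable def stO2_1_4_4 : V 2 → V 2 := by gen_open 1 1 4 4

theorem stO2_1_4_4_eq (t : V 2) : stO2_1_4_4 t = stepO 1 true 4 4 t := by
  kernel_rfl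

noncomputable def stO3_0_1_1 : V 3 → V 3 := by gen_open 2 0 1 1

theorem stO3_0_1_1_eq (t : V 3) : stO3_0_1_1 t = stepO 2 false 1 1 t := by
  kernel_rfl

noncomputable def stO3_0_2_2 : V 3 → V 3 := by gen_open 2 0 2 2

theorem stO3_0_2_2_eq (t : V 3) : stO3_0_2_2 t = stepO 2 false 2 2 t := by
  kernel_rfl

noncomputable def stO3_0_3_3 : V 3 → V 3 := by gen_open 2 0 3 3

theorem stO3_0_3_3_eq (t : V 3) : stO3_0_3_3 t = stepO 2 false 3 3 t := by
  kernel_rfl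

noncomputable def stO3_0_0_0 : V 3 → V 3 := by gen_open 2 0 0 0

theorem stO3_0_0_0_eq (t : V 3) : stO3_0_0_0 t = stepO 2 false 0 0 t := by
  kernel_rfl

noncomputable def stO3_1_1_1 : V 3 → V 3 := by gen_open 2 1 1 1

theorem stO3_1_1_1_eq (t : V 3) : stO3_1_1_1 t = stepO 2 true 1 1 t := by
  kernel_rfl

noncomputable def stO3_1_2_2 : V 3 → V 3 := by gen_open 2 1 2 2

theorem stO3_1_2_2_eq (t : V 3) : stO3_1_2_2 t = stepO 2 true 2 2 t := by
  kernel_rfl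

noncomputable def stO3_1_3_3 : V 3 → V 3 := by gen_open 2 1 3 3

theorem stO3_1_3_3_eq (t : V 3) : stO3_1_3_3 t = stepO 2 true 3 3 t := by
  kernel_rfl

noncomputable def stO3_1_4_4 : V 3 → V 3 := by gen_open 2 1 4 4

theorem stO3_1_4_4_eq (t : V 3) : stO3_1_4_4 t = stepO 2 true 4 4 t := by
  kernel_rfl

noncomputable def stO3_1_5_5 : V 3 → V 3 := by gen_open 2 1 5 5

theorem stO3_1_5_5_eq (t : V 3) : stO3_1_5_5 t = stepO 2 true 5 5 t := by
  kernel_rfl

noncomputable def stO3_1_0_0 : V 3 → V 3 := by gen_open 2 1 0 0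

theorem stO3_1_0_0_eq (t : V 3) : stO3_1_0_0 t = stepO 2 true 0 0 t := by
  kernel_rfl

noncomputable def stO3_1_6_6 : V 3 → V 3 := by gen_open 2 1 6 6

theorem stO3_1_6_6_eq (t : V 3) : stO3_1_6_6 t = stepO 2 true 6 6 t := by
  kernel_rfl

noncomputable def stO4_0_2_2 : V 4 → V 4 := by gen_open 3 0 2 2

theorem stO4_0_2_2_eq (t : V 4) : stO4_0_2_2 t = stepO 3 false 2 2 t := by
  kernel_rfl

noncomputable def stO4_0_3_3 : V 4 → V 4 := by gen_open 3 0 3 3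

theorem stO4_0_3_3_eq (t : V 4) : stO4_0_3_3 t = stepO 3 false 3 3 t := by
  kernel_rfl

noncomputable def stO4_0_4_4 : V 4 → V 4 := by gen_open 3 0 4 4

theorem stO4_0_4_4_eq (t : V 4) : stO4_0_4_4 t = stepO 3 false 4 4 t := by
  kernel_rfl

noncomputable def stO4_0_0_1 : V 4 → V 4 := by gen_open 3 0 0 1

theorem stO4_0_0_1_eq (t : V 4) : stO4_0_0_1 t = stepO 3 false 0 1 t := by
  kernel_rfl

noncomputable def stO4_1_2_2 : V 4 → V 4 := by gen_open 3 1 2 2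

theorem stO4_1_2_2_eq (t : V 4) : stO4_1_2_2 t = stepO 3 true 2 2 t := by
  kernel_rfl

noncomputable def stO4_1_3_3 : V 4 → V 4 := by gen_open 3 1 3 3

theorem stO4_1_3_3_eq (t : V 4) : stO4_1_3_3 t = stepO 3 true 3 3 t := by
  kernel_rfl

noncomputable def stO4_1_4_4 : V 4 → V 4 := by gen_open 3 1 4 4

theorem stO4_1_4_4_eq (t : V 4) : stO4_1_4_4 t = stepO 3 true 4 4 t := by
  kernel_rfl

noncomputable def stO4_1_5_5 : V 4 → V 4 := by gen_open 3 1 5 5

theorem stO4_1_5_5_eq (t : V 4) : stO4_1_5_5 t = stepO 3 true 5 5 t := by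
  kernel_rfl

noncomputable def stO4_1_6_6 : V 4 → V 4 := by gen_open 3 1 6 6

theorem stO4_1_6_6_eq (t : V 4) : stO4_1_6_6 t = stepO 3 true 6 6 t := by
  kernel_rfl

noncomputable def stO4_1_0_1 : V 4 → V 4 := by gen_open 3 1 0 1

theorem stO4_1_0_1_eq (t : V 4) : stO4_1_0_1 t = stepO 3 true 0 1 t := by
  kernel_rfl

noncomputable def stO4_1_7_8 : V 4 → V 4 := by gen_open 3 1 7 8

theorem stO4_1_7_8_eq (t : V 4) : stO4_1_7_8 t = stepO 3 true 7 8 t := by
  kernel_rfl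

noncomputable def stO5_0_3_3 : V 5 → V 5 := by gen_open 4 0 3 3

theorem stO5_0_3_3_eq (t : V 5) : stO5_0_3_3 t = stepO 4 false 3 3 t := by
  kernel_rfl

noncomputable def stO5_0_4_4 : V 5 → V 5 := by gen_open 4 0 4 4

theorem stO5_0_4_4_eq (t : V 5) : stO5_0_4_4 t = stepO 4 false 4 4 t := by
  kernel_rfl

noncomputable def stO5_0_5_5 : V 5 → V 5 := by gen_open 4 0 5 5

theorem stO5_0_5_5_eq (t : V 5) : stO5_0_5_5 t = stepO 4 false 5 5 t := by
  kernel_rfl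

noncomputable def stO5_0_0_2 : V 5 → V 5 := by gen_open 4 0 0 2

theorem stO5_0_0_2_eq (t : V 5) : stO5_0_0_2 t = stepO 4 false 0 2 t := by
  kernel_rfl

noncomputable def stO5_1_3_3 : V 5 → V 5 := by gen_open 4 1 3 3

theorem stO5_1_3_3_eq (t : V 5) : stO5_1_3_3 t = stepO 4 true 3 3 t := by
  kernel_rfl

noncomputable def stO5_1_4_4 : V 5 → V 5 := by gen_open 4 1 4 4

theorem stO5_1_4_4_eq (t : V 5) : stO5_1_4_4 t = stepO 4 true 4 4 t := by
  kernel_rfl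

noncomputable def stO5_1_5_5 : V 5 → V 5 := by gen_open 4 1 5 5

theorem stO5_1_5_5_eq (t : V 5) : stO5_1_5_5 t = stepO 4 true 5 5 t := by
  kernel_rfl

noncomputable def stO5_1_6_6 : V 5 → V 5 := by gen_open 4 1 6 6

theorem stO5_1_6_6_eq (t : V 5) : stO5_1_6_6 t = stepO 4 true 6 6 t := by
  kernel_rfl

noncomputable def stO5_1_7_7 : V 5 → V 5 := by gen_open 4 1 7 7

theorem stO5_1_7_7_eq (t : V 5) : stO5_1_7_7 t = stepO 4 true 7 7 t := by
  kernel_rfl

noncomputable def stO5_1_0_2 : V 5 → V 5 := by gen_open 4 1 0 2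

theorem stO5_1_0_2_eq (t : V 5) : stO5_1_0_2 t = stepO 4 true 0 2 t := by
  kernel_rfl

noncomputable def stO5_1_8_10 : V 5 → V 5 := by gen_open 4 1 8 10

theorem stO5_1_8_10_eq (t : V 5) : stO5_1_8_10 t = stepO 4 true 8 10 t := by
  kernel_rfl

noncomputable def stO6_0_4_4 : V 6 → V 6 := by gen_open 5 0 4 4

theorem stO6_0_4_4_eq (t : V 6) : stO6_0_4_4 t = stepO 5 false 4 4 t := by
  kernel_rfl

noncomputable def stO6_0_5_5 : V 6 → V 6 := by gen_open 5 0 5 5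

theorem stO6_0_5_5_eq (t : V 6) : stO6_0_5_5 t = stepO 5 false 5 5 t := by
  kernel_rfl

noncomputable def stO6_0_6_6 : V 6 → V 6 := by gen_open 5 0 6 6

theorem stO6_0_6_6_eq (t : V 6) : stO6_0_6_6 t = stepO 5 false 6 6 t := by
  kernel_rfl

noncomputable def stO6_0_0_3 : V 6 → V 6 := by gen_open 5 0 0 3

theorem stO6_0_0_3_eq (t : V 6) : stO6_0_0_3 t = stepO 5 false 0 3 t := by
  kernel_rfl

noncomputable def stO6_1_4_4 : V 6 → V 6 := by gen_open 5 1 4 4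

theorem stO6_1_4_4_eq (t : V 6) : stO6_1_4_4 t = stepO 5 true 4 4 t := by
  kernel_rfl

noncomputable def stO6_1_5_5 : V 6 → V 6 := by gen_open 5 1 5 5

theorem stO6_1_5_5_eq (t : V 6) : stO6_1_5_5 t = stepO 5 true 5 5 t := by
  kernel_rfl

noncomputable def stO6_1_6_6 : V 6 → V 6 := by gen_open 5 1 6 6

theorem stO6_1_6_6_eq (t : V 6) : stO6_1_6_6 t = stepO 5 true 6 6 t := by
  kernel_rfl

noncomputable def stO6_1_7_7 : V 6 → V 6 := by gen_open 5 1 7 7

theorem stO6_1_7_7_eq (t : V 6) : stO6_1_7_7 t = stepO 5 true 7 7 t := by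
  kernel_rfl

noncomputable def stO6_1_8_8 : V 6 → V 6 := by gen_open 5 1 8 8

theorem stO6_1_8_8_eq (t : V 6) : stO6_1_8_8 t = stepO 5 true 8 8 t := by
  kernel_rfl

noncomputable def stO6_1_0_3 : V 6 → V 6 := by gen_open 5 1 0 3

theorem stO6_1_0_3_eq (t : V 6) : stO6_1_0_3 t = stepO 5 true 0 3 t := by
  kernel_rfl

noncomputable def stO6_1_9_12 : V 6 → V 6 := by gen_open 5 1 9 12

theorem stO6_1_9_12_eq (t : V 6) : stO6_1_9_12 t = stepO 5 true 9 12 t := by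
  kernel_rfl

noncomputable def stO7_0_5_5 : V 7 → V 7 := by gen_open 6 0 5 5

theorem stO7_0_5_5_eq (t : V 7) : stO7_0_5_5 t = stepO 6 false 5 5 t := by
  kernel_rfl

noncomputable def stO7_0_6_6 : V 7 → V 7 := by gen_open 6 0 6 6

theorem stO7_0_6_6_eq (t : V 7) : stO7_0_6_6 t = stepO 6 false 6 6 t := by
  kernel_rfl

noncomputable def stO7_0_7_7 : V 7 → V 7 := by gen_open 6 0 7 7

theorem stO7_0_7_7_eq (t : V 7) : stO7_0_7_7 t = stepO 6 false 7 7 t := by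
  kernel_rfl

noncomputable def stO7_0_0_4 : V 7 → V 7 := by gen_open 6 0 0 4

theorem stO7_0_0_4_eq (t : V 7) : stO7_0_0_4 t = stepO 6 false 0 4 t := by
  kernel_rfl

noncomputable def stO7_1_5_5 : V 7 → V 7 := by gen_open 6 1 5 5

theorem stO7_1_5_5_eq (t : V 7) : stO7_1_5_5 t = stepO 6 true 5 5 t := by
  kernel_rfl

noncomputable def stO7_1_6_6 : V 7 → V 7 := by gen_open 6 1 6 6

theorem stO7_1_6_6_eq (t : V 7) : stO7_1_6_6 t = stepO 6 true 6 6 t := by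
  kernel_rfl

noncomputable def stO7_1_7_7 : V 7 → V 7 := by gen_open 6 1 7 7

theorem stO7_1_7_7_eq (t : V 7) : stO7_1_7_7 t = stepO 6 true 7 7 t := by
  kernel_rfl

noncomputable def stO7_1_8_8 : V 7 → V 7 := by gen_open 6 1 8 8

theorem stO7_1_8_8_eq (t : V 7) : stO7_1_8_8 t = stepO 6 true 8 8 t := by
  kernel_rfl

noncomputable def stO7_1_9_9 : V 7 → V 7 := by gen_open 6 1 9 9

theorem stO7_1_9_9_eq (t : V 7) : stO7_1_9_9 t = stepO 6 true 9 9 t := by
  kernel_rfl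

noncomputable def stO7_1_0_4 : V 7 → V 7 := by gen_open 6 1 0 4

theorem stO7_1_0_4_eq (t : V 7) : stO7_1_0_4 t = stepO 6 true 0 4 t := by
  kernel_rfl

noncomputable def stO7_1_10_14 : V 7 → V 7 := by gen_open 6 1 10 14

theorem stO7_1_10_14_eq (t : V 7) : stO7_1_10_14 t = stepO 6 true 10 14 t := by
  kernel_rfl


end Crest.Agent.R347.C
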