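import Crest.Agent.R347.Gen

/-! R347: written-out matrix-vector products (generated) -/

set_option autoImplicit false
set_option maxRecDepth 100000
set_option Elab.async false

namespace Crest.Agent.R347.C

noncomputable def stR10_2 : V 11 → V 11 := by gen_ring 9 8 8

theorem stR10_2_eq (t : V 11) : stR10_2 t = stepR 9 8 8 t := by kernel_rfl


end Crest.Agent.R347.C
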