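import Crest.Agent.R347.Gen

/-! R347: written-out matrix-vector products (generated) -/

set_option autoImplicit false
set_option maxRecDepth 100000
set_option Elab.async false

namespace Crest.Agent.R347.C

noncomputable def stR9_0 : V 10 → V 10 := by gen_ring 8 9 9

theorem stR9_0_eq (t : V 10) : stR9_0 t = stepR 8 9 9 t := by kernel_rfl

noncomputable def stR9_1 : V 10 → V 10 := by gen_ring 8 8 8

theorem stR9_1_eq (t : V 10) : stR9_1 t = stepR 8 8 8 t := by kernel_rfl

noncomputable def stR9_2 : V 10 → V 10 := by gen_ring 8 7 7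

theorem stR9_2_eq (t : V 10) : stR9_2 t = stepR 8 7 7 t := by kernel_rfl

noncomputable def stR9_3t : V 10 → V 10 := by gen_ring 8 0 6

theorem stR9_3t_eq (t : V 10) : stR9_3t t = stepR 8 0 6 t := by kernel_rfl


end Crest.Agent.R347.C
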