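import Crest.Agent.R347.Gen

/-! R347: written-out matrix-vector products (generated) -/

set_option autoImplicit false
set_option maxRecDepth 100000
set_option Elab.async false

namespace Crest.Agent.R347.C

noncomputable def stR6_0 : V 7 → V 7 := by gen_ring 5 6 6

theorem stR6_0_eq (t : V 7) : stR6_0 t = stepR 5 6 6 t := by kernel_rfl

noncomputable def stR6_1 : V 7 → V 7 := by gen_ring 5 5 5

theorem stR6_1_eq (t : V 7) : stR6_1 t = stepR 5 5 5 t := by kernel_rfl

noncomputable def stR6_2 : V 7 → V 7 := by gen_ring 5 4 4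

theorem stR6_2_eq (t : V 7) : stR6_2 t = stepR 5 4 4 t := by kernel_rfl

noncomputable def stR6_3t : V 7 → V 7 := by gen_ring 5 0 3

theorem stR6_3t_eq (t : V 7) : stR6_3t t = stepR 5 0 3 t := by kernel_rfl

noncomputable def stR7_0 : V 8 → V 8 := by gen_ring 6 7 7

theorem stR7_0_eq (t : V 8) : stR7_0 t = stepR 6 7 7 t := by kernel_rfl

noncomputable def stR7_1 : V 8 → V 8 := by gen_ring 6 6 6

theorem stR7_1_eq (t : V 8) : stR7_1 t = stepR 6 6 6 t := by kernel_rfl

noncomputable def stR7_2 : V 8 → V 8 := by gen_ring 6 5 5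

theorem stR7_2_eq (t : V 8) : stR7_2 t = stepR 6 5 5 t := by kernel_rfl

noncomputable def stR7_3t : V 8 → V 8 := by gen_ring 6 0 4

theorem stR7_3t_eq (t : V 8) : stR7_3t t = stepR 6 0 4 t := by kernel_rfl

noncomputable def stR8_0 : V 9 → V 9 := by gen_ring 7 8 8

theorem stR8_0_eq (t : V 9) : stR8_0 t = stepR 7 8 8 t := by kernel_rfl

noncomputable def stR8_1 : V 9 → V 9 := by gen_ring 7 7 7

theorem stR8_1_eq (t : V 9) : stR8_1 t = stepR 7 7 7 t := by kernel_rfl

noncomputable def stR8_2 : V 9 → V 9 := by gen_ring 7 6 6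

theorem stR8_2_eq (t : V 9) : stR8_2 t = stepR 7 6 6 t := by kernel_rfl

noncomputable def stR8_3t : V 9 → V 9 := by gen_ring 7 0 5

theorem stR8_3t_eq (t : V 9) : stR8_3t t = stepR 7 0 5 t := by kernel_rfl


end Crest.Agent.R347.C
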